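import Vale.Agent.P100H.Sphere

/-!
# P100: pointwise bootstrap and nonexistence
-/

noncomputable section

namespace Vale.Agent.P100H

open Filter Topology Set

variable {n : ℕ}

/-- A power lower bound near infinity. -/
def Lower (u : E n → ℝ) (a : ℝ) : Prop :=
  ∃ R c : ℝ, 0 < R ∧ 0 < c ∧ ∀ x : E n, R ≤ ‖x‖ → c * ‖x‖ ^ a ≤ u x

theorem lower_base (hn : 3 ≤ n) {u : E n → ℝ} (hu : Super u) : Lower u (-(2 * hf n)) := by
  obtain ⟨m, hm0, hm⟩ := sphere_min hn one_pos (f := u) (fun x _ => hu.cont.continuousAt)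
    (fun x _ => hu.pos x)
  refine ⟨1, m, one_pos, hm0, fun x hx => ?_⟩
  have hQ : (1 : ℝ) ≤ ‖x‖ ^ 2 := by nlinarith
  have h := exterior hn one_pos hm0.le (f := u) (fun z hz _ => hu.at' hz)
    (fun z hz => hu.lap z (ne_of_le_sq one_pos hz.le)) (fun z _ => (hu.pos z).le) hm x hQ
  rw [phi_eq one_pos (ne_of_le_sq one_pos hQ)] at h
  refine le_trans (le_of_eq ?_) h
  congr 1
  rw [one_div, Real.inv_rpow (by positivity), ← Real.rpow_natCast ‖x‖ 2,
    ← Real.rpow_mul (norm_nonneg x), Real.rpow_neg (norm_nonneg x)]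
  norm_num

theorem lower_of_spheres (hn : 3 ≤ n) {u : E n → ℝ} (hu : Super u) {θ : ℝ}
    (h : ∀ L, 0 < L → Cmp L θ u) : Lower u (-θ) := by
  obtain ⟨m, hm0, hm⟩ := sphere_min hn one_pos (f := u) (fun x _ => hu.cont.continuousAt)
    (fun x _ => hu.pos x)
  refine ⟨1, m, one_pos, hm0, fun x hx => ?_⟩
  have hρ : 0 < ‖x‖ := one_pos.trans_le hx
  have hx0 : x ≠ 0 := norm_pos_iff.1 hρ
  have h1 := h ‖x‖ hρ x (by nlinarith)
  rw [kel_eq hρ.le hx0] at h1
  have h2 : m ≤ u (inv ‖x‖ x) := hm _ (by rw [norm_inv_sq hx0]; field_simp)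
  refine le_trans ?_ h1
  rw [show ‖x‖ / ‖x‖ ^ 2 = ‖x‖⁻¹ by field_simp, Real.inv_rpow hρ.le, ← Real.rpow_neg hρ.le,
    mul_comm]
  exact mul_le_mul_of_nonneg_left h2 (Real.rpow_nonneg hρ.le _)

theorem lower_step (hn : 3 ≤ n) {u v : E n → ℝ} (hu : Super u) {A p b : ℝ} (hp : 0 < p)
    (he : Eqn A p u v) (h : Lower v b) : Lower u (2 + A + p * b) := by
  obtain ⟨R, c, hR, hc, hlow⟩ := h
  obtain ⟨k, _, hk, -, hband⟩ := rpow_band (A + b * p)
  have hn' : (0 : ℝ) < n := by exact_mod_cast (show 0 < n by omega)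
  refine ⟨2 * R, c ^ p * k / (16 * n), by linarith, by positivity, fun x hx => ?_⟩
  set ρ := ‖x‖
  have hρ : 0 < ρ := by linarith
  have h1 := ball_lower hn hu (x := x) (ρ := ρ / 2) (K := c ^ p * (k * ρ ^ (A + b * p)))
    (by linarith) (show ρ / 2 < ρ by linarith) (by positivity) fun z hz => by
      rw [Metric.mem_closedBall, dist_eq_norm] at hz
      have h2 := norm_sub_norm_le x z
      rw [norm_sub_rev] at h2
      have h3 := norm_sub_norm_le z x
      have hz0 : 0 < ‖z‖ := by linarith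
      have h4 : c ^ p * ‖z‖ ^ (b * p) ≤ v z ^ p := by
        rw [Real.rpow_mul hz0.le, ← Real.mul_rpow hc.le (Real.rpow_nonneg hz0.le b)]
        exact Real.rpow_le_rpow (by positivity) (hlow z (by linarith)) hp.le
      have h5 := (hband ρ ‖z‖ hρ (by linarith) (by linarith)).1
      have h6 := he z (norm_pos_iff.1 hz0)
      have h7 : c ^ p * (k * ρ ^ (A + b * p)) ≤ ‖z‖ ^ A * v z ^ p :=
        calc c ^ p * (k * ρ ^ (A + b * p)) ≤ c ^ p * ‖z‖ ^ (A + b * p) :=
              mul_le_mul_of_nonneg_left h5 (by positivity)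
          _ = ‖z‖ ^ A * (c ^ p * ‖z‖ ^ (b * p)) := by rw [Real.rpow_add hz0]; ring
          _ ≤ ‖z‖ ^ A * v z ^ p := mul_le_mul_of_nonneg_left h4 (by positivity)
      linarith
  refine le_trans (le_of_eq ?_) h1
  rw [show 2 + A + p * b = (A + b * p) + 2 by ring, Real.rpow_add hρ,
    show ρ ^ (2 : ℝ) = ρ ^ 2 by rw [← Real.rpow_natCast ρ 2]; norm_num]
  ring

theorem lower_false (hn : 3 ≤ n) {u : E n → ℝ} (hu : Super u) {a : ℝ} (ha : 0 < a)
    (h : Lower u a) : False := by
  obtain ⟨R, c, hR, hc, hlow⟩ := h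
  obtain ⟨ρ, h1, h2⟩ := ((((tendsto_rpow_atTop ha).const_mul_atTop hc).eventually_gt_atTop (u 0)).and
    (eventually_ge_atTop R)).exists
  have hρ : 0 < ρ := lt_of_lt_of_le hR h2
  have := centre hn hu (R := ρ ^ 2) (c := c * ρ ^ a) (by positivity) fun x hx => by
    have : ‖x‖ = ρ := (pow_left_inj₀ (norm_nonneg x) hρ.le two_ne_zero).1 hx
    exact this ▸ hlow x (this ▸ h2)
  linarith

theorem exists_pos_iterate {C k x0 : ℝ} (hC : 0 < C) (hD : x0 < C + k * x0) :
    ∃ j : ℕ, 0 < (fun x => C + k * x)^[j] x0 := by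
  by_contra hcon
  rw [not_exists] at hcon
  set f : ℝ → ℝ := fun x => C + k * x with hf'
  set d := min C (C + k * x0 - x0) with hd
  have hd0 : 0 < d := lt_min hC (by linarith)
  have key : ∀ j : ℕ, x0 + j * d ≤ f^[j] x0 := by
    intro j
    induction j with
    | zero => simp
    | succ j ih =>
      have hx : f^[j] x0 ≤ 0 := not_lt.1 (hcon j)
      rw [Function.iterate_succ_apply']
      have hjd : 0 ≤ (j : ℝ) * d := by positivity
      simp only [hf'] at ih hx ⊢
      push_cast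
      rcases le_total k 1 with hk | hk
      · have := mul_nonneg (sub_nonneg.2 hk) (neg_nonneg.2 hx)
        have := min_le_left C (C + k * x0 - x0)
        nlinarith
      · have := mul_le_mul_of_nonneg_left ih (show 0 ≤ k by linarith)
        have := mul_le_mul_of_nonneg_right hk hjd
        have := min_le_right C (C + k * x0 - x0)
        nlinarith
  obtain ⟨j, hj⟩ := exists_nat_gt (-x0 / d)
  rw [div_lt_iff₀ hd0] at hj
  exact hcon j (lt_of_lt_of_le (by linarith) (key j))

theorem boot_false (hn : 3 ≤ n) {A B p q x0 : ℝ} (hp : 0 < p) (hq : 0 < q)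
    (hC : 0 < 2 + A + p * (2 + B)) (hD : x0 < 2 + A + p * (2 + B) + p * q * x0)
    {u v : E n → ℝ} (hu : Super u) (hv : Super v) (he : Eqn A p u v) (he' : Eqn B q v u)
    (h : Lower u x0) : False := by
  obtain ⟨j, hj⟩ := exists_pos_iterate hC hD
  refine lower_false hn hu hj ?_
  clear hj
  induction j with
  | zero => exact h
  | succ j ih =>
    rw [Function.iterate_succ_apply']
    have := lower_step hn hu hp he (lower_step hn hv hq he' ih)
    rwa [show ∀ x : ℝ, 2 + A + p * (2 + B + q * x) = 2 + A + p * (2 + B) + p * q * x from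
      fun x => by ring] at this

theorem super_of_eqn {A p : ℝ} {u v : E n → ℝ} (hc : Continuous u) (hd : ContDiffOn ℝ 2 u {0}ᶜ)
    (hu : ∀ x, 0 < u x) (hv : ∀ x, 0 < v x) (he : Eqn A p u v) : Super u := by
  refine ⟨hc, hd, hu, fun x hx => ?_⟩
  have h1 := he x hx
  have h2 : 0 < ‖x‖ ^ A * v x ^ p :=
    mul_pos (Real.rpow_pos_of_pos (norm_pos_iff.2 hx) A) (Real.rpow_pos_of_pos (hv x) p)
  linarith

theorem lap_bound {A p : ℝ} (hp : 0 < p) {u v : E n → ℝ} (hv : Super v) (he : Eqn A p u v) :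
    ∃ C, 0 ≤ C ∧ ∀ z, z ≠ 0 → ‖z‖ ≤ 1 → |Laplacian.laplacian u z| ≤ C * ‖z‖ ^ A := by
  obtain ⟨w, -, hw⟩ := (isCompact_closedBall (0 : E n) 1).exists_isMaxOn ⟨0, by simp⟩
    hv.cont.continuousOn
  refine ⟨v w ^ p, (Real.rpow_pos_of_pos (hv.pos w) p).le, fun z hz hz1 => ?_⟩
  have h1 := he z hz
  have h2 : v z ≤ v w := hw (by simpa using hz1)
  rw [show Laplacian.laplacian u z = -(‖z‖ ^ A * v z ^ p) by linarith, abs_neg,
    abs_of_nonneg (by have := hv.pos z; positivity), mul_comm (v w ^ p)]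
  exact mul_le_mul_of_nonneg_left (Real.rpow_le_rpow (hv.pos z).le h2 hp.le) (by positivity)

/-- Nonexistence when both scaling exponents exceed `(n-2)/2`. -/
theorem false_of_both (hn : 3 ≤ n) {A B p q : ℝ} (hA : -2 < A) (hB : -2 < B) (hp : 0 < p)
    (hq : 0 < q) (hpq : 1 < p * q)
    (hα : hf n < (2 + A + p * (2 + B)) / (p * q - 1))
    (hβ : hf n < (2 + B + q * (2 + A)) / (p * q - 1))
    {u v : E n → ℝ} (hu : Super u) (hv : Super v) (he : Eqn A p u v) (he' : Eqn B q v u) :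
    False := by
  set α := (2 + A + p * (2 + B)) / (p * q - 1) with hαd
  set β := (2 + B + q * (2 + A)) / (p * q - 1) with hβd
  have h0 : p * q - 1 ≠ 0 := by linarith
  have i3 : α * (p * q - 1) = 2 + A + p * (2 + B) := div_mul_cancel₀ _ h0
  have i4 : β * (p * q - 1) = 2 + B + q * (2 + A) := div_mul_cancel₀ _ h0
  have i1 : α - p * β = -(2 + A) := mul_right_cancel₀ h0 (by linear_combination i3 - p * i4)
  have i2 : β - q * α = -(2 + B) := mul_right_cancel₀ h0 (by linear_combination i4 - q * i3)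
  have hh := hf_pos hn
  have hα0 : 0 < α := hh.trans hα
  have hβ0 : 0 < β := hh.trans hβ
  set s := (1 + max (hf n / α) (hf n / β)) / 2 with hs
  have ha1 : hf n / α < 1 := by rw [div_lt_one hα0]; exact hα
  have hb1 : hf n / β < 1 := by rw [div_lt_one hβ0]; exact hβ
  have hs1 : s < 1 := by
    have := max_lt ha1 hb1; rw [hs]; linarith
  have hsα : hf n ≤ s * α := by
    rw [← div_le_iff₀ hα0]
    have := le_max_left (hf n / α) (hf n / β)
    rw [hs]; linarith
  have hsβ : hf n ≤ s * β := by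
    rw [← div_le_iff₀ hβ0]
    have := le_max_right (hf n / α) (hf n / β)
    rw [hs]; linarith
  have hσ : 0 < s * α + 2 + A - p * (s * β) := by
    have : s * α + 2 + A - p * (s * β) = (1 - s) * (2 + A) := by linear_combination s * i1
    rw [this]; exact mul_pos (by linarith) (by linarith)
  have hτ : 0 < s * β + 2 + B - q * (s * α) := by
    have : s * β + 2 + B - q * (s * α) = (1 - s) * (2 + B) := by linear_combination s * i2
    rw [this]; exact mul_pos (by linarith) (by linarith)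
  obtain ⟨Cu, hCu, hlu⟩ := lap_bound hp hv he
  obtain ⟨Cv, hCv, hlv⟩ := lap_bound hq hu he'
  have hsp := spheres hn hsα hsβ hA hB hp hq hσ hτ hu hv he he' hCu hCv hlu hlv
  have hC : 0 < 2 + A + p * (2 + B) :=
    add_pos (by linarith) (mul_pos hp (by linarith))
  refine boot_false hn hp hq hC (x0 := -(s * α)) ?_ hu hv he he'
    (lower_of_spheres hn hu fun L hL => (hsp L hL).1)
  have : 2 + A + p * (2 + B) + p * q * -(s * α) - -(s * α) =
      (2 + A + p * (2 + B)) * (1 - s) := by linear_combination (-s) * i3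
  nlinarith [mul_pos hC (sub_pos.2 hs1)]

/-- Nonexistence from the base bound alone. -/
theorem false_of_base (hn : 3 ≤ n) {A B p q : ℝ} (hA : -2 < A) (hB : -2 < B) (hp : 0 < p)
    (hq : 0 < q) (h : p * q ≤ 1 ∨ 2 * hf n < (2 + A + p * (2 + B)) / (p * q - 1))
    {u v : E n → ℝ} (hu : Super u) (hv : Super v) (he : Eqn A p u v) (he' : Eqn B q v u) :
    False := by
  have hC : 0 < 2 + A + p * (2 + B) :=
    add_pos (by linarith) (mul_pos hp (by linarith))
  refine boot_false hn hp hq hC ?_ hu hv he he' (lower_base hn hu)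
  have hh := hf_pos hn
  rcases le_or_gt (p * q) 1 with h1 | h1
  · nlinarith [mul_nonneg (sub_nonneg.2 h1) hh.le]
  · rcases h with h2 | h2
    · linarith
    · rw [lt_div_iff₀ (by linarith)] at h2
      linarith

end Vale.Agent.P100H
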