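import Mathlib

/-!
# P100: pointwise calculus for moving spheres centred at the origin
-/

noncomputable section

namespace Vale.Agent.P100H

open Filter Topology Set Finset

abbrev E (n : ℕ) := EuclideanSpace ℝ (Fin n)

variable {n : ℕ}

/-- Coordinate vector. -/
def cv (i : Fin n) : E n := EuclideanSpace.single i (1 : ℝ)

theorem sum_sq (x : E n) : ∑ i, x i ^ 2 = ‖x‖ ^ 2 := by
  rw [EuclideanSpace.norm_sq_eq]
  simp [sq_abs]

theorem inner_cv (x : E n) (i : Fin n) : inner ℝ x (cv i) = x i := by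
  simp [cv, EuclideanSpace.inner_single_right]

theorem norm_cv (i : Fin n) : ‖cv i‖ = 1 := by simp [cv]

theorem sum_cv (x : E n) : ∑ i, x i • cv i = x := by
  have h := (EuclideanSpace.basisFun (Fin n) ℝ).sum_repr x
  simpa [cv] using h

theorem norm_sq_line (x : E n) (i : Fin n) (t : ℝ) :
    ‖x + t • cv i‖ ^ 2 = ‖x‖ ^ 2 + 2 * t * x i + t ^ 2 := by
  rw [norm_add_sq_real, real_inner_smul_right, norm_smul, mul_pow, Real.norm_eq_abs, sq_abs,
    inner_cv, norm_cv]
  ring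

theorem lap_eq_sum (f : E n → ℝ) (x : E n) :
    Laplacian.laplacian f x = ∑ i, fderiv ℝ (fderiv ℝ f) x (cv i) (cv i) := by
  rw [InnerProductSpace.laplacian_eq_iteratedFDeriv_orthonormalBasis f
    (EuclideanSpace.basisFun (Fin n) ℝ)]
  refine Finset.sum_congr rfl fun i _ => ?_
  rw [iteratedFDeriv_two_apply, EuclideanSpace.basisFun_apply]
  simp [cv]

/-- Second derivative of a weighted composition along a curve. -/
theorem line_second {P P' : ℝ → ℝ} {P2 : ℝ} {γ γ' : ℝ → E n} {γ2 : E n} {f : E n → ℝ} {y : E n}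
    (hy : γ 0 = y) (hP : ∀ᶠ t in 𝓝 0, HasDerivAt P (P' t) t) (hP2 : HasDerivAt P' P2 0)
    (hγ : ∀ᶠ t in 𝓝 0, HasDerivAt γ (γ' t) t) (hγ2 : HasDerivAt γ' γ2 0)
    (hf : ContDiffAt ℝ 2 f y) :
    deriv (deriv fun t => P t * f (γ t)) 0 = P2 * f y + 2 * P' 0 * fderiv ℝ f y (γ' 0) +
      P 0 * (fderiv ℝ (fderiv ℝ f) y (γ' 0) (γ' 0) + fderiv ℝ f y γ2) := by
  subst hy
  have hdiff : ∀ᶠ t in 𝓝 (0 : ℝ), DifferentiableAt ℝ f (γ t) := by
    have h := (hf.eventually (by simp)).mono fun z hz => hz.differentiableAt (by simp)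
    exact hγ.self_of_nhds.continuousAt.eventually h
  have h1 : deriv (fun t => P t * f (γ t)) =ᶠ[𝓝 0]
      fun t => P' t * f (γ t) + P t * fderiv ℝ f (γ t) (γ' t) := by
    filter_upwards [hP, hγ, hdiff] with t ht htγ htf
    exact (ht.mul (htf.hasFDerivAt.comp_hasDerivAt t htγ)).deriv
  rw [h1.deriv_eq]
  have hd : HasFDerivAt (fderiv ℝ f) (fderiv ℝ (fderiv ℝ f) (γ 0)) (γ 0) :=
    ((hf.fderiv_right (m := 1) (by norm_num)).differentiableAt (by simp)).hasFDerivAt
  have h2 := (hd.comp_hasDerivAt 0 hγ.self_of_nhds).clm_apply hγ2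
  have h3 := (hP2.mul ((hdiff.self_of_nhds).hasFDerivAt.comp_hasDerivAt 0 hγ.self_of_nhds)).add
    (hP.self_of_nhds.mul h2)
  refine (h3.congr_deriv ?_).deriv
  simp only [Function.comp_apply]
  ring

theorem hasDerivAt_cvline (x : E n) (i : Fin n) (t : ℝ) :
    HasDerivAt (fun t : ℝ => x + t • cv i) (cv i) t := by
  simpa using ((hasDerivAt_id t).smul_const (cv i)).const_add x

theorem lap_lines {f : E n → ℝ} {x : E n} (hf : ContDiffAt ℝ 2 f x) :
    Laplacian.laplacian f x = ∑ i, deriv (deriv fun t : ℝ => f (x + t • cv i)) 0 := by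
  rw [lap_eq_sum]
  refine Finset.sum_congr rfl fun i _ => ?_
  have h := line_second (P := fun _ => 1) (P' := fun _ => 0) (P2 := 0)
    (γ := fun t : ℝ => x + t • cv i) (γ' := fun _ => cv i) (γ2 := 0) (f := f) (y := x)
    (by simp) (Eventually.of_forall fun t => hasDerivAt_const t 1) (hasDerivAt_const 0 0)
    (Eventually.of_forall fun t => hasDerivAt_cvline x i t) (hasDerivAt_const 0 _) hf
  simp only [one_mul, zero_mul, mul_zero, map_zero, zero_add, add_zero] at h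
  exact h.symm

/-- Second derivative test at a local minimum. -/
theorem deriv2_nonneg {g : ℝ → ℝ} {x : ℝ} (hm : IsLocalMin g x) (hc : ContinuousAt g x) :
    0 ≤ deriv (deriv g) x := by
  by_contra h
  rw [not_le] at h
  have hmax := isLocalMax_of_deriv_deriv_neg h hm.deriv_eq_zero hc
  have heq : g =ᶠ[𝓝 x] fun _ => g x := by
    filter_upwards [hm, hmax] with y h1 h2
    exact le_antisymm h2 h1
  have h2 : deriv g =ᶠ[𝓝 x] fun _ => (0 : ℝ) := by
    filter_upwards [heq.eventuallyEq_nhds] with y hy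
    rw [hy.deriv_eq, deriv_const]
  rw [h2.deriv_eq, deriv_const] at h
  exact lt_irrefl _ h

theorem lap_nonneg_of_min {f : E n → ℝ} {x : E n} (hf : ContDiffAt ℝ 2 f x) (hm : IsLocalMin f x) :
    0 ≤ Laplacian.laplacian f x := by
  rw [lap_lines hf]
  refine Finset.sum_nonneg fun i _ => ?_
  have hcl : ContinuousAt (fun t : ℝ => x + t • cv i) 0 := by fun_prop
  refine deriv2_nonneg ?_ (ContinuousAt.comp (g := f) (by simpa using hf.continuousAt) hcl)
  exact IsLocalMin.comp_continuous (g := fun t : ℝ => x + t • cv i) (by simpa using hm) hcl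

/-- Minimum principle for a strict supersolution. -/
theorem minP {K U : Set (E n)} {f : E n → ℝ} (hK : IsCompact K) (hU : IsOpen U) (hUK : U ⊆ K)
    (hc : ContinuousOn f K) (hd : ∀ x ∈ U, ContDiffAt ℝ 2 f x)
    (hlap : ∀ x ∈ U, Laplacian.laplacian f x < 0) (hb : ∀ x ∈ K, x ∉ U → 0 ≤ f x) :
    ∀ x ∈ K, 0 ≤ f x := by
  intro x hx
  obtain ⟨z, hz, hmin⟩ := hK.exists_isMinOn ⟨x, hx⟩ hc
  refine le_trans ?_ (hmin hx)
  by_cases hzU : z ∈ U
  · exfalso
    have h := lap_nonneg_of_min (hd z hzU) (hmin.isLocalMin (mem_of_superset (hU.mem_nhds hzU) hUK))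
    have := hlap z hzU
    linarith
  · exact hb z hz hzU

/-- Inversion in the sphere of squared radius `L`. -/
def inv (L : ℝ) (x : E n) : E n := (L / ‖x‖ ^ 2) • x

/-- Kelvin transform of squared radius `L` and exponent `θ`. -/
def kel (L θ : ℝ) (f : E n → ℝ) (x : E n) : ℝ := L ^ θ * (‖x‖ ^ 2) ^ (-θ) * f (inv L x)

theorem norm_inv_sq {L : ℝ} {x : E n} (hx : x ≠ 0) : ‖inv L x‖ ^ 2 = L ^ 2 / ‖x‖ ^ 2 := by
  have h : ‖x‖ ≠ 0 := norm_ne_zero_iff.2 hx
  rw [inv, norm_smul, mul_pow, Real.norm_eq_abs, sq_abs]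
  field_simp

theorem inv_ne_zero' {L : ℝ} (hL : 0 < L) {x : E n} (hx : x ≠ 0) : inv L x ≠ 0 := by
  have h : 0 < ‖x‖ := norm_pos_iff.2 hx
  exact smul_ne_zero (by positivity) hx

theorem contDiffAt_kel {L θ : ℝ} (hL : 0 < L) {f : E n → ℝ} (hf : ContDiffOn ℝ 2 f {0}ᶜ)
    {x : E n} (hx : x ≠ 0) : ContDiffAt ℝ 2 (kel L θ f) x := by
  have hQ : ‖x‖ ^ 2 ≠ 0 := pow_ne_zero 2 (norm_ne_zero_iff.2 hx)
  have hn : ContDiffAt ℝ 2 (fun z : E n => ‖z‖ ^ 2) x := (contDiff_norm_sq ℝ).contDiffAt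
  have hi : ContDiffAt ℝ 2 (fun z : E n => inv L z) x :=
    ((contDiffAt_const.div hn hQ)).smul contDiffAt_id
  refine (contDiffAt_const.mul (hn.rpow_const_of_ne hQ)).mul ?_
  exact (hf.contDiffAt (isOpen_compl_singleton.mem_nhds (inv_ne_zero' hL hx))).comp x hi

theorem sum_bil (H : E n →L[ℝ] E n →L[ℝ] ℝ) (x : E n) :
    ∑ i, x i * (H (cv i) x + H x (cv i)) = 2 * H x x := by
  simp only [mul_add, Finset.sum_add_distrib]
  have h1 : ∑ i, x i * H (cv i) x = H x x := by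
    conv_rhs => arg 1; arg 2; rw [← sum_cv x]
    simp [map_sum, map_smul]
  have h2 : ∑ i, x i * H x (cv i) = H x x := by
    conv_rhs => arg 2; rw [← sum_cv x]
    simp [map_sum, map_smul]
  rw [h1, h2]
  ring

theorem sum_lin (D : E n →L[ℝ] ℝ) (x : E n) : ∑ i, x i * D (cv i) = D x := by
  conv_rhs => rw [← sum_cv x]
  simp [map_sum, map_smul]

/-- Laplacian of the Kelvin transform. -/
theorem lap_kel {L θ : ℝ} (hL : 0 < L) {f : E n → ℝ} (hf : ContDiffOn ℝ 2 f {0}ᶜ)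
    {x : E n} (hx : x ≠ 0) :
    Laplacian.laplacian (kel L θ f) x = L ^ θ * (‖x‖ ^ 2) ^ (-θ) *
      (L ^ 2 / (‖x‖ ^ 2) ^ 2 * Laplacian.laplacian f (inv L x) +
        2 * (2 * θ - ((n : ℝ) - 2)) / ‖x‖ ^ 2 *
          (θ * f (inv L x) + fderiv ℝ f (inv L x) (inv L x))) := by
  have hfy := hf.contDiffAt (isOpen_compl_singleton.mem_nhds (inv_ne_zero' hL hx))
  rw [lap_lines (contDiffAt_kel hL hf hx)]
  set Q := ‖x‖ ^ 2 with hQdef
  have hQ : 0 < Q := by rw [hQdef]; have := norm_pos_iff.2 hx; positivity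
  have hiy : inv L x = (L / Q) • x := rfl
  rw [lap_eq_sum f (inv L x)]
  set y := inv L x with hy
  set H := fderiv ℝ (fderiv ℝ f) y with hH
  set D := fderiv ℝ f y with hD
  set A := L ^ θ * Q ^ (-θ) with hA
  have hpow1 : Q ^ (-θ - 1) = Q ^ (-θ) / Q := by rw [Real.rpow_sub hQ, Real.rpow_one]
  have hpow2 : Q ^ (-θ - 1 - 1) = Q ^ (-θ) / Q / Q := by
    rw [Real.rpow_sub hQ, Real.rpow_one, hpow1]
  have hterm : ∀ i, deriv (deriv fun t : ℝ => kel L θ f (x + t • cv i)) 0 =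
      A * ((L ^ 2 / Q ^ 2) * H (cv i) (cv i) +
        (-2 * L ^ 2 / Q ^ 3) * (x i * (H (cv i) x + H x (cv i))) +
        (4 * L ^ 2 / Q ^ 4 * H x x + 8 * (θ + 1) * L / Q ^ 3 * D x + 4 * θ * (θ + 1) / Q ^ 2 * f y) *
          x i ^ 2 +
        (-4 * L * (θ + 1) / Q ^ 2) * (x i * D (cv i)) +
        (-2 * L / Q ^ 2 * D x + -2 * θ / Q * f y)) := by
    intro i
    set a := x i
    set q : ℝ → ℝ := fun t => Q + 2 * t * a + t ^ 2 with hqdef
    have hq : ∀ t, HasDerivAt q (2 * a + 2 * t) t := fun t => by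
      refine (((((hasDerivAt_id t).const_mul 2).mul_const a).const_add Q).add
        (hasDerivAt_pow 2 t)).congr_deriv ?_
      simp
    have hq0 : q 0 = Q := by simp [hqdef]
    have hq' : HasDerivAt (fun t : ℝ => 2 * a + 2 * t) 2 0 := by
      simpa using ((hasDerivAt_id (0 : ℝ)).const_mul 2).const_add (2 * a)
    have hev : ∀ᶠ t in 𝓝 (0 : ℝ), q t ≠ 0 :=
      (hq 0).continuousAt.eventually_ne (by rw [hq0]; exact hQ.ne')
    have heq : (fun t : ℝ => kel L θ f (x + t • cv i)) =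
        fun t => (L ^ θ * q t ^ (-θ)) * f ((L / q t) • (x + t • cv i)) := by
      funext t
      simp only [kel, inv, norm_sq_line, hqdef, hQdef, a]
    rw [heq]
    have hP : ∀ᶠ t in 𝓝 (0 : ℝ), HasDerivAt (fun t => L ^ θ * q t ^ (-θ))
        (L ^ θ * ((2 * a + 2 * t) * -θ * q t ^ (-θ - 1))) t := by
      filter_upwards [hev] with t ht
      exact ((hq t).rpow_const (Or.inl ht)).const_mul _
    have hP2 := ((hq'.mul_const (-θ)).mul ((hq 0).rpow_const (p := -θ - 1)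
      (Or.inl (by rw [hq0]; exact hQ.ne')))).const_mul (L ^ θ)
    have hγ : ∀ᶠ t in 𝓝 (0 : ℝ), HasDerivAt (fun t => (L / q t) • (x + t • cv i))
        ((L / q t) • cv i + (-L * (2 * a + 2 * t) / q t ^ 2) • (x + t • cv i)) t := by
      filter_upwards [hev] with t ht
      refine ((((hasDerivAt_const t L).div (hq t) ht)).smul (hasDerivAt_cvline x i t)).congr_deriv ?_
      simp [neg_mul]
    have hq00 : q 0 ≠ 0 := by rw [hq0]; exact hQ.ne'
    have hγ2 := (((hasDerivAt_const (0 : ℝ) L).div (hq 0) hq00).smul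
        (hasDerivAt_const (0 : ℝ) (cv i))).add
      (((hq'.const_mul (-L)).div ((hq 0).pow 2) (pow_ne_zero 2 hq00)).smul
        (hasDerivAt_cvline x i 0))
    rw [line_second (f := f) (y := y) (by simp [hq0, hiy]) hP hP2 hγ hγ2 hfy]
    simp only [hq0, mul_zero, zero_smul, add_zero, smul_zero, Pi.pow_apply, Pi.div_apply,
      zero_add, mul_zero, map_add, map_smul, ContinuousLinearMap.add_apply,
      ContinuousLinearMap.smul_apply, smul_eq_mul, ← hD, ← hH, Pi.mul_apply]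
    rw [hpow1, hpow2, hA]
    field_simp
    ring
  simp only [hterm, ← Finset.mul_sum, Finset.sum_add_distrib, sum_bil, sum_lin, sum_sq,
    Finset.sum_const, Finset.card_univ, Fintype.card_fin, nsmul_eq_mul, ← hQdef]
  have hDy : D y = L / Q * D x := by rw [hiy, map_smul, smul_eq_mul]
  rw [hDy]
  field_simp
  ring

end Vale.Agent.P100H
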