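import Vale.Agent.P100H.Start

/-!
# P100: the moving spheres
-/

noncomputable section

namespace Vale.Agent.P100H

open Filter Topology Set

variable {n : ℕ}

/-- `u ≥` its Kelvin transform outside the sphere of squared radius `L`. -/
def Cmp (L θ : ℝ) (u : E n → ℝ) : Prop := ∀ x, L ≤ ‖x‖ ^ 2 → kel L θ u x ≤ u x

/-- Radial derivative of `r^θ u`, times `r^(1-θ)`. -/
def gen (θ : ℝ) (u : E n → ℝ) (y : E n) : ℝ := θ * u y + fderiv ℝ u y y

/-- Infinitesimal monotonicity up to squared radius `L`. -/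
def Mono (L θ : ℝ) (u : E n → ℝ) : Prop := ∀ y : E n, y ≠ 0 → ‖y‖ ^ 2 ≤ L → 0 ≤ gen θ u y

/-- The differential equation `-Δu = |x|^A v^p`. -/
def Eqn (A p : ℝ) (u v : E n → ℝ) : Prop :=
  ∀ x, x ≠ 0 → -Laplacian.laplacian u x = ‖x‖ ^ A * v x ^ p

theorem sq_pos_of_ne {x : E n} (hx : x ≠ 0) : 0 < ‖x‖ ^ 2 := by
  have := norm_pos_iff.2 hx; positivity

theorem ne_of_le_sq {L : ℝ} (hL : 0 < L) {x : E n} (hx : L ≤ ‖x‖ ^ 2) : x ≠ 0 := fun h => by
  simp [h] at hx; linarith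

theorem kel_eq {L θ : ℝ} (hL : 0 ≤ L) {f : E n → ℝ} {x : E n} (hx : x ≠ 0) :
    kel L θ f x = (L / ‖x‖ ^ 2) ^ θ * f (inv L x) := by
  have := sq_pos_of_ne hx
  rw [kel, Real.div_rpow hL this.le, Real.rpow_neg this.le, ← div_eq_mul_inv]

theorem kel_self {L θ : ℝ} (hL : 0 < L) {f : E n → ℝ} {x : E n} (hx : ‖x‖ ^ 2 = L) :
    kel L θ f x = f x := by
  rw [kel_eq hL.le (ne_of_le_sq hL hx.ge), hx, div_self hL.ne', Real.one_rpow, one_mul, inv, hx,
    div_self hL.ne', one_smul]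

theorem hasDerivAt_gap {u : E n → ℝ} (hu : Super u) {y : E n} (hy : y ≠ 0) (θ : ℝ) :
    HasDerivAt (fun t : ℝ => u (t • y) - t ^ (-(2 * θ)) * u (t⁻¹ • y)) (2 * gen θ u y) 1 := by
  have hd : HasFDerivAt u (fderiv ℝ u y) y :=
    ((hu.at' hy).differentiableAt (by simp)).hasFDerivAt
  have h1 : HasDerivAt (fun t : ℝ => u (t • y)) (fderiv ℝ u y y) 1 :=
    hd.comp_hasDerivAt_of_eq 1 (by simpa using (hasDerivAt_id (1 : ℝ)).smul_const y) (by simp)
  have h2 : HasDerivAt (fun t : ℝ => u (t⁻¹ • y)) (-fderiv ℝ u y y) 1 := by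
    have h : HasDerivAt (fun t : ℝ => t⁻¹ • y) (-y) 1 := by
      simpa using (hasDerivAt_inv (one_ne_zero : (1 : ℝ) ≠ 0)).smul_const y
    have := hd.comp_hasDerivAt_of_eq 1 h (by simp)
    rwa [map_neg] at this
  have h3 : HasDerivAt (fun t : ℝ => t ^ (-(2 * θ))) (-(2 * θ)) 1 := by
    simpa using (hasDerivAt_id (1 : ℝ)).rpow_const (p := -(2 * θ)) (Or.inl one_ne_zero)
  refine (h1.sub (h3.mul h2)).congr_deriv ?_
  simp [gen]
  ring

theorem kel_ray {θ : ℝ} {u : E n → ℝ} {y : E n} (hy : y ≠ 0) {t : ℝ} (ht : 0 < t) :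
    kel (‖y‖ ^ 2) θ u (t • y) = t ^ (-(2 * θ)) * u (t⁻¹ • y) := by
  have hQ := sq_pos_of_ne hy
  have hn : ‖t • y‖ ^ 2 = t ^ 2 * ‖y‖ ^ 2 := by
    rw [norm_smul, mul_pow, Real.norm_eq_abs, sq_abs]
  rw [kel_eq hQ.le (smul_ne_zero ht.ne' hy), inv, hn, smul_smul]
  congr 1
  · rw [show ‖y‖ ^ 2 / (t ^ 2 * ‖y‖ ^ 2) = (t ^ 2)⁻¹ by field_simp, Real.inv_rpow (by positivity),
      ← Real.rpow_neg (by positivity), ← Real.rpow_natCast t 2, ← Real.rpow_mul ht.le]
    congr 1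
    push_cast
    ring
  · congr 2
    field_simp

theorem gen_nonneg {θ : ℝ} {u : E n → ℝ} (hu : Super u) {y : E n} (hy : y ≠ 0)
    (h : Cmp (‖y‖ ^ 2) θ u) : 0 ≤ gen θ u y := by
  have := deriv_nonneg_of_right (b := 2) (by norm_num) (hasDerivAt_gap hu hy θ) (by simp)
    fun t ht _ => by
      rw [← kel_ray hy (by linarith : 0 < t), sub_nonneg]
      refine h _ ?_
      rw [norm_smul, mul_pow, Real.norm_eq_abs, sq_abs]
      exact le_mul_of_one_le_left (sq_pos_of_ne hy).le (by nlinarith)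
  linarith

theorem contDiffAt_gap {L θ : ℝ} (hL : 0 < L) {u : E n → ℝ} (hu : Super u) {x : E n} (hx : x ≠ 0) :
    ContDiffAt ℝ 2 (fun z => u z - kel L θ u z) x :=
  (hu.at' hx).sub (contDiffAt_kel hL hu.diff hx)

/-- The difference is a strict supersolution outside the sphere. -/
theorem lap_gap {L θu θv A p : ℝ} (hL : 0 < L) (hθ : hf n ≤ θu) (hp : 0 < p)
    (hσ : 0 < θu + 2 + A - p * θv) {u v : E n → ℝ} (hu : Super u) (hv : Super v)
    (he : Eqn A p u v) (hmono : Mono L θu u) (hcv : Cmp L θv v) {x : E n} (hx : L < ‖x‖ ^ 2) :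
    Laplacian.laplacian (fun z => u z - kel L θu u z) x < 0 := by
  have hx0 := ne_of_le_sq hL hx.le
  have hQ := sq_pos_of_ne hx0
  have hy0 := inv_ne_zero' hL hx0
  have hgy : 0 ≤ gen θu u (inv L x) := by
    refine hmono _ hy0 ?_
    rw [norm_inv_sq hx0, div_le_iff₀ hQ]
    nlinarith
  have e : (fun z => u z - kel L θu u z) = u - kel L θu u := rfl
  rw [e, (hu.at' hx0).laplacian_sub (contDiffAt_kel hL hu.diff hx0), lap_kel hL hu.diff hx0]
  set s := L / ‖x‖ ^ 2 with hs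
  have hs0 : 0 < s := by positivity
  have hs1 : s < 1 := by rw [hs, div_lt_one hQ]; exact hx
  have hpre : L ^ θu * (‖x‖ ^ 2) ^ (-θu) = s ^ θu := by
    rw [hs, Real.div_rpow hL.le hQ.le, Real.rpow_neg hQ.le, ← div_eq_mul_inv]
  have hny : ‖inv L x‖ = s * ‖x‖ := by
    rw [inv, norm_smul, Real.norm_eq_abs, abs_of_pos hs0]
  have h1 := he x hx0
  have h2 := he _ hy0
  rw [hny, Real.mul_rpow hs0.le (norm_nonneg x)] at h2
  have h3 := hcv x hx.le
  rw [kel_eq hL.le hx0, ← hs] at h3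
  have hvx := hv.pos x
  have hvy := hv.pos (inv L x)
  have h4 : v (inv L x) ≤ s ^ (-θv) * v x := by
    rw [Real.rpow_neg hs0.le, inv_mul_eq_div, le_div_iff₀ (Real.rpow_pos_of_pos hs0 _), mul_comm]
    exact h3
  have h5 : v (inv L x) ^ p ≤ s ^ (-θv * p) * v x ^ p := by
    rw [Real.rpow_mul hs0.le, ← Real.mul_rpow (by positivity) hvx.le]
    exact Real.rpow_le_rpow hvy.le h4 hp.le
  have h6 : s ^ θu * (s ^ 2 * (s ^ A * s ^ (-θv * p))) < 1 := by
    rw [← Real.rpow_natCast s 2, ← Real.rpow_add hs0, ← Real.rpow_add hs0, ← Real.rpow_add hs0]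
    refine Real.rpow_lt_one hs0.le hs1 ?_
    push_cast
    linarith
  have hs2 : L ^ 2 / (‖x‖ ^ 2) ^ 2 = s ^ 2 := by rw [hs, div_pow]
  rw [hpre, hs2]
  have hxA : 0 < ‖x‖ ^ A := Real.rpow_pos_of_pos (norm_pos_iff.2 hx0) A
  have h7 : s ^ θu * (s ^ 2 * (s ^ A * ‖x‖ ^ A * v (inv L x) ^ p)) < ‖x‖ ^ A * v x ^ p := by
    calc s ^ θu * (s ^ 2 * (s ^ A * ‖x‖ ^ A * v (inv L x) ^ p))
        ≤ s ^ θu * (s ^ 2 * (s ^ A * ‖x‖ ^ A * (s ^ (-θv * p) * v x ^ p))) :=
          mul_le_mul_of_nonneg_left (mul_le_mul_of_nonneg_left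
            (mul_le_mul_of_nonneg_left h5 (by positivity)) (by positivity)) (by positivity)
      _ = (s ^ θu * (s ^ 2 * (s ^ A * s ^ (-θv * p)))) * (‖x‖ ^ A * v x ^ p) := by ring
      _ < 1 * (‖x‖ ^ A * v x ^ p) :=
          mul_lt_mul_of_pos_right h6 (mul_pos hxA (Real.rpow_pos_of_pos hvx p))
      _ = _ := one_mul _
  have hcoef : 0 ≤ 2 * θu - ((n : ℝ) - 2) := by rw [hf] at hθ; linarith
  have h8 : 0 ≤ s ^ θu * (2 * (2 * θu - ((n : ℝ) - 2)) / ‖x‖ ^ 2 * gen θu u (inv L x)) := by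
    positivity
  rw [show Laplacian.laplacian u (inv L x) = -(s ^ A * ‖x‖ ^ A * v (inv L x) ^ p) by linarith]
  simp only [gen] at h8
  linarith

/-- All that is known at a sphere reached by the moving spheres. -/
theorem gap_pos {L θ : ℝ} (hL : 0 < L) {u : E n → ℝ} (hu : Super u) (hc : Cmp L θ u)
    (hlap : ∀ x, L < ‖x‖ ^ 2 → Laplacian.laplacian (fun z => u z - kel L θ u z) x < 0)
    {x : E n} (hx : L < ‖x‖ ^ 2) : kel L θ u x < u x := by
  refine lt_of_le_of_ne (hc x hx.le) fun heq => ?_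
  refine absurd ?_ (not_le.2 (hlap x hx))
  refine lap_nonneg_of_min (contDiffAt_gap hL hu (ne_of_le_sq hL hx.le)) ?_
  have hopen : {z : E n | L < ‖z‖ ^ 2} ∈ 𝓝 x :=
    (isOpen_lt continuous_const (continuous_norm.pow 2)).mem_nhds hx
  filter_upwards [hopen] with z hz
  have := hc z (le_of_lt hz)
  simp only [heq, sub_self]
  linarith

theorem sphere_min (hn : 3 ≤ n) {R : ℝ} (hR : 0 < R) {f : E n → ℝ}
    (hc : ∀ x, ‖x‖ ^ 2 = R → ContinuousAt f x) (hp : ∀ x, ‖x‖ ^ 2 = R → 0 < f x) :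
    ∃ c, 0 < c ∧ ∀ x, ‖x‖ ^ 2 = R → c ≤ f x := by
  have hmem : ∀ x : E n, x ∈ ann n R R ↔ ‖x‖ ^ 2 = R := fun x =>
    ⟨fun h => le_antisymm h.2 h.1, fun h => ⟨h.ge, h.le⟩⟩
  obtain ⟨x0, hx0⟩ := exists_sq_eq (n := n) hn hR.le
  obtain ⟨z, hz, hmin⟩ := (isCompact_ann (n := n) R R).exists_isMinOn ⟨x0, (hmem x0).2 hx0⟩
    fun x hx => (hc x ((hmem x).1 hx)).continuousWithinAt
  exact ⟨f z, hp z ((hmem z).1 hz), fun x hx => hmin ((hmem x).2 hx)⟩

/-- Hopf: strict monotonicity on the sphere. -/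
theorem gen_pos_sphere (hn : 3 ≤ n) {L θ : ℝ} (hL : 0 < L) {u : E n → ℝ} (hu : Super u)
    (hc : Cmp L θ u)
    (hlap : ∀ x, L < ‖x‖ ^ 2 → Laplacian.laplacian (fun z => u z - kel L θ u z) x < 0)
    {y : E n} (hy : ‖y‖ ^ 2 = L) : 0 < gen θ u y := by
  obtain ⟨c, hc0, hcm⟩ := sphere_min hn (R := 4 * L) (by linarith) (f := fun z => u z - kel L θ u z)
    (fun x hx => (contDiffAt_gap hL hu (ne_of_le_sq (L := 4 * L) (by linarith) hx.ge)).continuousAt)
    (fun x hx => sub_pos.2 (gap_pos hL hu hc hlap (by linarith)))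
  have hy0 := ne_of_le_sq hL hy.ge
  have h := minAnn hL (f := fun z => (u z - kel L θ u z) + c * phi L z + -c) (b := 4 * L)
    (fun z hz _ => (lap_comb hL c (-c) hz (contDiffAt_gap hL hu hz)).1)
    (fun z hz _ => by
      have hz0 := ne_of_le_sq hL hz.le
      rw [(lap_comb hL c (-c) hz0 (contDiffAt_gap hL hu hz0)).2]
      exact hlap z hz)
    (fun z hz => by
      rcases hz with hz | hz
      · rw [kel_self hL hz, phi_sphere hL hz]; linarith
      · have h1 := hcm z hz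
        have h2 := mul_pos hc0 (phi_pos hL (ne_of_le_sq (L := 4 * L) (by linarith) hz.ge))
        linarith)
  have hdp : HasDerivAt (fun t : ℝ => t ^ (-(2 * hf n))) (-(2 * hf n)) 1 := by
    simpa using (hasDerivAt_id (1 : ℝ)).rpow_const (p := -(2 * hf n)) (Or.inl one_ne_zero)
  have hd := ((hasDerivAt_gap hu hy0 θ).add (hdp.const_mul c)).sub_const c
  have hres := deriv_nonneg_of_right (b := 2) (by norm_num) hd (by simp) fun t ht ht2 => by
    have ht0 : (0 : ℝ) < t := by linarith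
    have hn2 : ‖t • y‖ ^ 2 = t ^ 2 * L := by
      rw [norm_smul, mul_pow, Real.norm_eq_abs, sq_abs, hy]
    have h1 := h (t • y) ⟨by rw [hn2]; exact le_mul_of_one_le_left hL.le (by nlinarith),
      by rw [hn2]; exact mul_le_mul_of_nonneg_right (by nlinarith) hL.le⟩
    rw [show phi L (t • y) = kel L (hf n) (fun _ => 1) (t • y) by rw [phi_eq_kel], ← hy,
      kel_ray hy0 ht0, kel_ray hy0 ht0, mul_one] at h1
    simp only [Pi.add_apply]
    linarith
  have := mul_pos hc0 (hf_pos hn)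
  linarith

theorem continuousAt_gen {u : E n → ℝ} (hu : Super u) (θ : ℝ) {y : E n} (hy : y ≠ 0) :
    ContinuousAt (gen θ u) y := by
  refine (continuousAt_const.mul hu.cont.continuousAt).add ?_
  exact (((hu.at' hy).fderiv_right (m := 1) (by norm_num)).continuousAt).clm_apply continuousAt_id

theorem ray_mono {u : E n → ℝ} (hu : Super u) {θ : ℝ} {y : E n} (hy : y ≠ 0) {T : ℝ} (hT : 1 ≤ T)
    (h : ∀ t, 1 ≤ t → t ≤ T → 0 ≤ gen θ u (t • y)) : u y ≤ T ^ θ * u (T • y) := by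
  have hd : ∀ t : ℝ, 0 < t → HasDerivAt (fun t : ℝ => t ^ θ * u (t • y))
      (θ * t ^ (θ - 1) * u (t • y) + t ^ θ * fderiv ℝ u (t • y) y) t := fun t ht => by
    have h1 : HasDerivAt (fun t : ℝ => u (t • y)) (fderiv ℝ u (t • y) y) t :=
      ((hu.at' (smul_ne_zero ht.ne' hy)).differentiableAt (by simp)).hasFDerivAt.comp_hasDerivAt t
        (by simpa using (hasDerivAt_id t).smul_const y)
    exact (Real.hasDerivAt_rpow_const (p := θ) (Or.inl ht.ne')).mul h1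
  have hm : MonotoneOn (fun t : ℝ => t ^ θ * u (t • y)) (Icc 1 T) := by
    refine monotoneOn_of_hasDerivWithinAt_nonneg (convex_Icc 1 T)
      (fun t ht => (hd t (by linarith [ht.1])).continuousAt.continuousWithinAt)
      (fun t ht => (hd t (by rw [interior_Icc] at ht; linarith [ht.1])).hasDerivWithinAt) ?_
    intro t ht
    rw [interior_Icc] at ht
    have ht0 : (0 : ℝ) < t := by linarith [ht.1]
    have hg := h t ht.1.le ht.2.le
    simp only [gen, map_smul, smul_eq_mul] at hg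
    rw [Real.rpow_sub ht0, Real.rpow_one,
      show θ * (t ^ θ / t) * u (t • y) + t ^ θ * fderiv ℝ u (t • y) y =
        (t ^ θ / t) * (θ * u (t • y) + t * fderiv ℝ u (t • y) y) by field_simp]
    positivity
  have := hm ⟨le_refl 1, hT⟩ ⟨hT, le_refl T⟩ hT
  simpa using this

theorem cmp_of_ray {u : E n → ℝ} (hu : Super u) {L θ : ℝ} (hL : 0 < L) {x : E n}
    (hx : L ≤ ‖x‖ ^ 2)
    (h : ∀ z : E n, L ^ 2 / ‖x‖ ^ 2 ≤ ‖z‖ ^ 2 → ‖z‖ ^ 2 ≤ ‖x‖ ^ 2 → 0 ≤ gen θ u z) :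
    kel L θ u x ≤ u x := by
  have hx0 := ne_of_le_sq hL hx
  have hQ := sq_pos_of_ne hx0
  have hy0 := inv_ne_zero' hL hx0
  have hT : 1 ≤ ‖x‖ ^ 2 / L := by rw [le_div_iff₀ hL]; linarith
  have hTx : (‖x‖ ^ 2 / L) • inv L x = x := by
    rw [inv, smul_smul, show ‖x‖ ^ 2 / L * (L / ‖x‖ ^ 2) = 1 by field_simp, one_smul]
  have hm := ray_mono hu (θ := θ) hy0 hT fun t h1 h2 => by
    have hn : ‖t • inv L x‖ ^ 2 = t ^ 2 * (L ^ 2 / ‖x‖ ^ 2) := by
      rw [norm_smul, mul_pow, Real.norm_eq_abs, sq_abs, norm_inv_sq hx0]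
    have ht2 : 1 ≤ t ^ 2 := by nlinarith
    refine h _ ?_ ?_ <;> rw [hn]
    · exact le_mul_of_one_le_left (by positivity) ht2
    · calc t ^ 2 * (L ^ 2 / ‖x‖ ^ 2) ≤ (‖x‖ ^ 2 / L) ^ 2 * (L ^ 2 / ‖x‖ ^ 2) :=
            mul_le_mul_of_nonneg_right (by gcongr) (by positivity)
        _ = _ := by field_simp
  rw [hTx] at hm
  rw [kel_eq hL.le hx0, show L / ‖x‖ ^ 2 = (‖x‖ ^ 2 / L)⁻¹ by rw [inv_div],
    Real.inv_rpow (by positivity), inv_mul_le_iff₀ (Real.rpow_pos_of_pos (by positivity) _)]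
  exact hm

/-- The comparison persists slightly beyond a sphere where it is strict. -/
theorem extend (hn : 3 ≤ n) {L θ : ℝ} (hL : 0 < L) (hθ : hf n ≤ θ) {u : E n → ℝ} (hu : Super u)
    (hc : Cmp L θ u)
    (hlap : ∀ x, L < ‖x‖ ^ 2 → Laplacian.laplacian (fun z => u z - kel L θ u z) x < 0) :
    ∀ᶠ L' in 𝓝 L, L ≤ L' → Cmp L' θ u := by
  have hh := hf_pos hn
  -- a shell of strict monotonicity
  set K := ann n (L / 2) (2 * L) ∩ {y | gen θ u y ≤ 0} with hK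
  have hKc : IsCompact K := by
    refine (isCompact_ann _ _).of_isClosed_subset ?_ inter_subset_left
    rw [hK]
    have h1 : ContinuousOn (gen θ u) (ann n (L / 2) (2 * L)) := fun y hy =>
      (continuousAt_gen hu θ (ann_ne_zero (by linarith) hy)).continuousWithinAt
    exact h1.preimage_isClosed_of_isClosed (isCompact_ann _ _).isClosed isClosed_Iic
  obtain ⟨η, hη0, hη⟩ : ∃ η > 0, ∀ y ∈ K, η < |‖y‖ ^ 2 - L| := by
    rcases K.eq_empty_or_nonempty with hKe | hKn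
    · exact ⟨1, one_pos, fun y hy => by rw [hKe] at hy; exact absurd hy (Set.notMem_empty y)⟩
    · obtain ⟨z, hz, hmin⟩ := hKc.exists_isMinOn hKn (f := fun y : E n => |‖y‖ ^ 2 - L|)
        (((continuous_norm.pow 2).sub continuous_const).abs.continuousOn)
      have hz0 : 0 < |‖z‖ ^ 2 - L| := by
        rw [abs_pos, sub_ne_zero]
        exact fun h => absurd hz.2 (not_le.2 (gen_pos_sphere hn hL hu hc hlap h))
      exact ⟨|‖z‖ ^ 2 - L| / 2, by positivity, fun y hy => by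
        have : |‖z‖ ^ 2 - L| ≤ |‖y‖ ^ 2 - L| := hmin hy
        linarith⟩
  set η' := min η (L / 2) with hη'
  have hη'0 : 0 < η' := lt_min hη0 (by linarith)
  have hshell : ∀ y : E n, L - η' ≤ ‖y‖ ^ 2 → ‖y‖ ^ 2 ≤ L + η' → 0 ≤ gen θ u y := by
    intro y h1 h2
    by_contra hg
    have hl := min_le_right η (L / 2)
    have := hη y ⟨⟨by linarith, by linarith⟩, show gen θ u y ≤ 0 from le_of_lt (not_le.1 hg)⟩
    have : |‖y‖ ^ 2 - L| ≤ η' := abs_le.2 ⟨by linarith, by linarith⟩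
    linarith [min_le_left η (L / 2)]
  -- infinity
  set R := 4 * L with hR
  have hR0 : 0 < R := by linarith
  obtain ⟨c, hc0, hcm⟩ := sphere_min hn hR0 (f := fun z => u z - kel L θ u z)
    (fun x hx => (contDiffAt_gap hL hu (ne_of_le_sq hR0 hx.ge)).continuousAt)
    (fun x hx => sub_pos.2 (gap_pos hL hu hc hlap (by linarith)))
  have hfar := exterior hn hR0 hc0.le (f := fun z => u z - kel L θ u z)
    (fun x hx _ => contDiffAt_gap hL hu hx) (fun x hx => hlap x (by linarith))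
    (fun x hx => sub_nonneg.2 (hc x (by linarith))) hcm
  set g : ℝ → E n → ℝ := fun a z => a ^ θ * u (a • z) with hg
  have hθ0 : 0 < θ := hh.trans_le hθ
  have hgc : Continuous fun w : ℝ × E n => g w.1 w.2 :=
    ((Real.continuous_rpow_const hθ0.le).comp continuous_fst).mul
      (hu.cont.comp (continuous_fst.smul continuous_snd))
  have e1 : ∀ᶠ L' in 𝓝 L, ∀ z ∈ Metric.closedBall (0 : E n) (Real.sqrt R)⁻¹,
      g L' z < g L z + c * R ^ θ := by
    refine (isCompact_closedBall _ _).eventually_forall_of_forall_eventually fun z _ => ?_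
    have h1 : ContinuousAt (fun w : ℝ × E n => g w.1 w.2 - g L w.2) (L, z) :=
      (hgc.sub (hgc.comp (Continuous.prodMk continuous_const continuous_snd))).continuousAt
    have h2 := h1.eventually (gt_mem_nhds (show g L z - g L z < c * R ^ θ by
      rw [sub_self]; positivity))
    filter_upwards [h2] with w hw
    linarith
  have e2 : ∀ᶠ L' in 𝓝 L, ∀ x ∈ ann n (L + η') R, kel L' θ u x < u x := by
    refine (isCompact_ann _ _).eventually_forall_of_forall_eventually fun x hx => ?_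
    have hx0 : x ≠ 0 := ann_ne_zero (by linarith) hx
    have h1 : ContinuousAt (fun w : ℝ × E n => kel w.1 θ u w.2 - u w.2) (L, x) := by
      have hQ : ‖x‖ ^ 2 ≠ 0 := (sq_pos_of_ne hx0).ne'
      have hn2 : ContinuousAt (fun w : ℝ × E n => ‖w.2‖ ^ 2) (L, x) :=
        ((continuous_norm.comp continuous_snd).pow 2).continuousAt
      refine (((continuousAt_fst.rpow_const (Or.inr hθ0.le)).mul (hn2.rpow_const (Or.inl hQ))).mul
        ?_).sub (hu.cont.comp continuous_snd).continuousAt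
      exact ContinuousAt.comp (g := u) hu.cont.continuousAt
        ((continuousAt_fst.div hn2 hQ).smul continuousAt_snd)
    have h2 := h1.eventually (gt_mem_nhds (show kel L θ u x - u x < 0 from
      sub_neg.2 (gap_pos hL hu hc hlap (by linarith [hx.1]))))
    filter_upwards [h2] with w hw
    linarith
  filter_upwards [e1, e2, gt_mem_nhds (show L < L + η' by linarith)] with L' h1 h2 h3 hLL'
  intro x hx
  have hL' : 0 < L' := by linarith
  have hx0 := ne_of_le_sq hL' hx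
  have hQ := sq_pos_of_ne hx0
  rcases le_total (‖x‖ ^ 2) (L + η') with hA | hA
  · refine cmp_of_ray hu hL' hx fun z hz1 hz2 => hshell z ?_ (hz2.trans hA)
    refine le_trans ?_ hz1
    rw [le_div_iff₀ hQ]
    have hl := min_le_right η (L / 2)
    calc (L - η') * ‖x‖ ^ 2 ≤ (L - η') * (L + η') := mul_le_mul_of_nonneg_left hA (by linarith)
      _ ≤ L' ^ 2 := by nlinarith
  rcases le_total (‖x‖ ^ 2) R with hB | hB
  · exact (h2 x ⟨hA, hB⟩).le
  · set z := (‖x‖ ^ 2)⁻¹ • x with hz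
    have hk : ∀ a, 0 ≤ a → kel a θ u x = (‖x‖ ^ 2) ^ (-θ) * g a z := fun a ha => by
      simp only [kel, hg, hz, inv, smul_smul, div_eq_mul_inv]
      ring
    have hzn : z ∈ Metric.closedBall (0 : E n) (Real.sqrt R)⁻¹ := by
      have hxn : Real.sqrt R ≤ ‖x‖ := Real.sqrt_le_iff.2 ⟨norm_nonneg x, hB⟩
      rw [mem_closedBall_zero_iff, hz, norm_smul, norm_inv, Real.norm_eq_abs, abs_of_pos hQ]
      have hx1 : 0 < ‖x‖ := norm_pos_iff.2 hx0
      rw [show (‖x‖ ^ 2)⁻¹ * ‖x‖ = ‖x‖⁻¹ by field_simp]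
      exact inv_anti₀ (Real.sqrt_pos.2 hR0) hxn
    have h4 := hfar x hB
    rw [phi_eq hR0 hx0, hk L hL.le] at h4
    rw [hk L' hL'.le]
    have h5 : (‖x‖ ^ 2) ^ (-θ) * g L' z ≤ (‖x‖ ^ 2) ^ (-θ) * g L z + c * (R / ‖x‖ ^ 2) ^ θ := by
      rw [Real.div_rpow hR0.le hQ.le, Real.rpow_neg hQ.le]
      have := mul_le_mul_of_nonneg_left (h1 z hzn).le (inv_nonneg.2 (Real.rpow_nonneg hQ.le θ))
      rw [mul_add] at this
      refine this.trans_eq ?_
      ring
    have h6 : (R / ‖x‖ ^ 2) ^ θ ≤ (R / ‖x‖ ^ 2) ^ (hf n) :=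
      Real.rpow_le_rpow_of_exponent_ge (by positivity) (by rw [div_le_one hQ]; exact hB) hθ
    have h7 := mul_le_mul_of_nonneg_left h6 hc0.le
    linarith

/-- Small spheres. -/
theorem start (hn : 3 ≤ n) {θ A C : ℝ} (hθ : hf n ≤ θ) (hA : -2 < A) (hC : 0 ≤ C) {u : E n → ℝ}
    (hu : Super u) (hlap : ∀ z, z ≠ 0 → ‖z‖ ≤ 1 → |Laplacian.laplacian u z| ≤ C * ‖z‖ ^ A) :
    ∀ᶠ L in 𝓝[>] (0 : ℝ), Cmp L θ u := by
  have hθ0 : 0 < θ := (hf_pos hn).trans_le hθ
  obtain ⟨r, hr, hgen⟩ := near_zero hu hθ0 hA hC hlap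
  set R := (r / 2) ^ 2 with hR
  have hR0 : 0 < R := by positivity
  obtain ⟨m, hm0, hm⟩ := sphere_min hn hR0 (f := u) (fun x _ => hu.cont.continuousAt)
    (fun x _ => hu.pos x)
  obtain ⟨w, -, hwmax⟩ := (isCompact_closedBall (0 : E n) (r / 2)).exists_isMaxOn
    ⟨0, by simp; linarith⟩ hu.cont.continuousOn
  have hext := exterior hn hR0 hm0.le (f := u) (fun x hx _ => hu.at' hx)
    (fun x hx => hu.lap x (ne_of_le_sq hR0 hx.le)) (fun x _ => (hu.pos x).le) hm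
  have hlim : Tendsto (fun L : ℝ => (L / R) ^ θ * u w) (𝓝[>] 0) (𝓝 0) := by
    have h1 : Tendsto (fun L : ℝ => L / R) (𝓝[>] 0) (𝓝 0) := by
      simpa using ((continuous_id.div_const R).tendsto 0).mono_left nhdsWithin_le_nhds
    simpa [Real.zero_rpow hθ0.ne'] using (h1.rpow_const (Or.inr hθ0.le)).mul_const (u w)
  filter_upwards [hlim.eventually (gt_mem_nhds hm0), self_mem_nhdsWithin,
    Filter.Eventually.filter_mono nhdsWithin_le_nhds (gt_mem_nhds hR0)] with L h1 hL h2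
  intro x hx
  have hL0 : 0 < L := hL
  have hx0 := ne_of_le_sq hL0 hx
  have hQ := sq_pos_of_ne hx0
  rcases le_total (‖x‖ ^ 2) R with hA' | hA'
  · refine cmp_of_ray hu hL0 hx fun z hz1 hz2 => ?_
    have hz0 : z ≠ 0 := ne_of_le_sq (L := L ^ 2 / ‖x‖ ^ 2) (by positivity) hz1
    refine (hgen z hz0 ?_).le
    have : ‖z‖ ≤ r / 2 := (pow_le_pow_iff_left₀ (norm_nonneg z) (by positivity) two_ne_zero).1
      (hz2.trans hA')
    linarith
  · have hy : inv L x ∈ Metric.closedBall (0 : E n) (r / 2) := by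
      rw [mem_closedBall_zero_iff]
      refine (pow_le_pow_iff_left₀ (norm_nonneg _) (by positivity) two_ne_zero).1 ?_
      rw [norm_inv_sq hx0, div_le_iff₀ hQ, ← hR]
      nlinarith
    have h3 : u (inv L x) ≤ u w := hwmax hy
    have h4 := hext x hA'
    rw [phi_eq hR0 hx0] at h4
    have hs : L / ‖x‖ ^ 2 = (L / R) * (R / ‖x‖ ^ 2) := by field_simp
    have h6 : (R / ‖x‖ ^ 2) ^ θ ≤ (R / ‖x‖ ^ 2) ^ (hf n) :=
      Real.rpow_le_rpow_of_exponent_ge (by positivity) (by rw [div_le_one hQ]; exact hA') hθ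
    calc kel L θ u x = (L / ‖x‖ ^ 2) ^ θ * u (inv L x) := kel_eq hL0.le hx0
      _ ≤ (L / ‖x‖ ^ 2) ^ θ * u w := mul_le_mul_of_nonneg_left h3 (by positivity)
      _ = ((L / R) ^ θ * u w) * (R / ‖x‖ ^ 2) ^ θ := by
          rw [hs, Real.mul_rpow (by positivity) (by positivity)]; ring
      _ ≤ m * (R / ‖x‖ ^ 2) ^ (hf n) := mul_le_mul h1.le h6 (by positivity) hm0.le
      _ ≤ u x := h4

theorem cmp_closed {L θ : ℝ} (hL : 0 < L) (hθ : 0 ≤ θ) {u : E n → ℝ} (hu : Super u)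
    (h : ∀ L', 0 < L' → L' < L → Cmp L' θ u) : Cmp L θ u := by
  intro x hx
  have hc : ContinuousAt (fun a : ℝ => kel a θ u x) L :=
    ((Real.continuousAt_rpow_const L θ (Or.inr hθ)).mul continuousAt_const).mul
      (ContinuousAt.comp (g := u) hu.cont.continuousAt
        ((continuousAt_id.div_const _).smul continuousAt_const))
  refine le_of_tendsto (hc.tendsto.mono_left nhdsWithin_le_nhds : Tendsto _ (𝓝[<] L) _) ?_
  filter_upwards [Ioo_mem_nhdsLT hL] with a ha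
  exact h a ha.1 ha.2 x (by linarith [ha.2])

/-- The moving spheres never stop. -/
theorem spheres (hn : 3 ≤ n) {θu θv A B p q Cu Cv : ℝ} (hθu : hf n ≤ θu) (hθv : hf n ≤ θv)
    (hA : -2 < A) (hB : -2 < B) (hp : 0 < p) (hq : 0 < q)
    (hσ : 0 < θu + 2 + A - p * θv) (hτ : 0 < θv + 2 + B - q * θu) {u v : E n → ℝ}
    (hu : Super u) (hv : Super v) (he : Eqn A p u v) (he' : Eqn B q v u) (hCu : 0 ≤ Cu)
    (hCv : 0 ≤ Cv) (hlu : ∀ z, z ≠ 0 → ‖z‖ ≤ 1 → |Laplacian.laplacian u z| ≤ Cu * ‖z‖ ^ A)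
    (hlv : ∀ z, z ≠ 0 → ‖z‖ ≤ 1 → |Laplacian.laplacian v z| ≤ Cv * ‖z‖ ^ B) :
    ∀ L, 0 < L → Cmp L θu u ∧ Cmp L θv v := by
  intro L0 hL0
  by_contra hcon
  let S : Set ℝ := {L | 0 < L ∧ ∀ L', 0 < L' → L' ≤ L → Cmp L' θu u ∧ Cmp L' θv v}
  obtain ⟨ε, hε, hsub⟩ := mem_nhdsGT_iff_exists_Ioc_subset.1
    ((start hn hθu hA hCu hu hlu).and (start hn hθv hB hCv hv hlv))
  have hεS : ε ∈ S := ⟨hε, fun L' h1 h2 => hsub ⟨h1, h2⟩⟩
  have hbdd : BddAbove S := ⟨L0, fun L hL => by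
    by_contra h
    exact hcon (hL.2 L0 hL0 (le_of_lt (not_le.1 h)))⟩
  set s := sSup S with hs
  have hs0 : 0 < s := lt_of_lt_of_le hεS.1 (le_csSup hbdd hεS)
  have hlt : ∀ L', 0 < L' → L' < s → Cmp L' θu u ∧ Cmp L' θv v := fun L' h1 h2 => by
    obtain ⟨a, ha, hLa⟩ := exists_lt_of_lt_csSup ⟨ε, hεS⟩ h2
    exact ha.2 L' h1 hLa.le
  have hcu := cmp_closed hs0 ((hf_pos hn).le.trans hθu) hu fun L' h1 h2 => (hlt L' h1 h2).1
  have hcv := cmp_closed hs0 ((hf_pos hn).le.trans hθv) hv fun L' h1 h2 => (hlt L' h1 h2).2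
  have hle : ∀ L', 0 < L' → L' ≤ s → Cmp L' θu u ∧ Cmp L' θv v := fun L' h1 h2 => by
    rcases h2.eq_or_lt with h | h
    · rw [h]; exact ⟨hcu, hcv⟩
    · exact hlt L' h1 h
  have hmu : Mono s θu u := fun y hy hys => gen_nonneg hu hy (hle _ (sq_pos_of_ne hy) hys).1
  have hmv : Mono s θv v := fun y hy hys => gen_nonneg hv hy (hle _ (sq_pos_of_ne hy) hys).2
  have e := (extend hn hs0 hθu hu hcu fun x hx => lap_gap hs0 hθu hp hσ hu hv he hmu hcv hx).and
    (extend hn hs0 hθv hv hcv fun x hx => lap_gap hs0 hθv hq hτ hv hu he' hmv hcu hx)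
  obtain ⟨δ, hδ, hδ'⟩ := Metric.eventually_nhds_iff.1 e
  have hmem : s + δ / 2 ∈ S := by
    refine ⟨by linarith, fun L' h1 h2 => ?_⟩
    rcases le_or_gt L' s with h | h
    · exact hle L' h1 h
    · have := hδ' (y := L') (by rw [Real.dist_eq, abs_of_pos (by linarith)]; linarith)
      exact ⟨this.1 h.le, this.2 h.le⟩
  linarith [le_csSup hbdd hmem]

end Vale.Agent.P100H
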