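import Vale.Agent.P100H.Tools

/-!
# P100: gradient bound and strict ray monotonicity near the origin
-/

noncomputable section

namespace Vale.Agent.P100H

open Filter Topology Set

variable {n : ℕ}

theorem rpow_band (e : ℝ) :
    ∃ c C : ℝ, 0 < c ∧ 0 < C ∧ ∀ ρ s : ℝ, 0 < ρ → ρ / 2 ≤ s → s ≤ 2 * ρ →
      c * ρ ^ e ≤ s ^ e ∧ s ^ e ≤ C * ρ ^ e := by
  refine ⟨min ((1 / 2 : ℝ) ^ e) ((2 : ℝ) ^ e), max ((1 / 2 : ℝ) ^ e) ((2 : ℝ) ^ e),
    lt_min (by positivity) (by positivity), lt_max_of_lt_left (by positivity), ?_⟩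
  intro ρ s hρ h1 h2
  have ht1 : 1 / 2 ≤ s / ρ := by rw [le_div_iff₀ hρ]; linarith
  have ht2 : s / ρ ≤ 2 := by rw [div_le_iff₀ hρ]; linarith
  have ht0 : 0 < s / ρ := lt_of_lt_of_le (by norm_num) ht1
  have hs : s ^ e = (s / ρ) ^ e * ρ ^ e := by
    rw [← Real.mul_rpow ht0.le hρ.le, div_mul_cancel₀ _ hρ.ne']
  have hp := (Real.rpow_pos_of_pos hρ e).le
  rcases le_total 0 e with he | he
  · refine ⟨?_, ?_⟩ <;> rw [hs]
    · exact mul_le_mul_of_nonneg_right
        ((min_le_left _ _).trans (Real.rpow_le_rpow (by norm_num) ht1 he)) hp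
    · exact mul_le_mul_of_nonneg_right
        ((Real.rpow_le_rpow ht0.le ht2 he).trans (le_max_right _ _)) hp
  · refine ⟨?_, ?_⟩ <;> rw [hs]
    · exact mul_le_mul_of_nonneg_right
        ((min_le_right _ _).trans (Real.rpow_le_rpow_of_nonpos ht0 ht2 he)) hp
    · exact mul_le_mul_of_nonneg_right
        ((Real.rpow_le_rpow_of_nonpos (by norm_num) ht1 he).trans (le_max_left _ _)) hp

/-- Reflection in a coordinate hyperplane. -/
def refl (j : Fin n) (z : E n) : E n := z - (2 * z j) • cv j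

theorem contDiff_coord (j : Fin n) : ContDiff ℝ 2 (fun z : E n => z j) :=
  ((EuclideanSpace.proj j : E n →L[ℝ] ℝ)).contDiff

theorem contDiff_refl (j : Fin n) : ContDiff ℝ 2 (refl j : E n → E n) :=
  contDiff_id.sub ((contDiff_const.mul (contDiff_coord j)).smul contDiff_const)

theorem cv_apply (i j : Fin n) : cv i j = if j = i then (1 : ℝ) else 0 := by
  simp [cv]

theorem refl_line (j i : Fin n) (z : E n) (t : ℝ) :
    refl j (z + t • cv i) = refl j z + t • ((if j = i then (-1 : ℝ) else 1) • cv i) := by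
  by_cases h : j = i
  · subst h
    simp only [refl, PiLp.add_apply, PiLp.smul_apply, cv_apply, if_true, smul_eq_mul, mul_one]
    module
  · simp only [refl, PiLp.add_apply, PiLp.smul_apply, cv_apply, if_neg h, smul_eq_mul, mul_zero,
      add_zero, one_smul]
    module

theorem norm_refl (j : Fin n) (z : E n) : ‖refl j z‖ = ‖z‖ := by
  have h : ‖refl j z‖ ^ 2 = ‖z‖ ^ 2 := by
    rw [refl, norm_sub_sq_real, real_inner_smul_right, norm_smul, mul_pow, inner_cv, norm_cv,
      Real.norm_eq_abs, sq_abs]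
    ring
  calc ‖refl j z‖ = Real.sqrt (‖refl j z‖ ^ 2) := (Real.sqrt_sq (norm_nonneg _)).symm
    _ = ‖z‖ := by rw [h, Real.sqrt_sq (norm_nonneg _)]

theorem lap_comp_refl {f : E n → ℝ} (j : Fin n) (x z : E n)
    (hf : ContDiffAt ℝ 2 f (x + refl j z)) :
    Laplacian.laplacian (fun w => f (x + refl j w)) z = Laplacian.laplacian f (x + refl j z) := by
  have hc : ContDiffAt ℝ 2 (fun w : E n => f (x + refl j w)) z :=
    hf.comp z (contDiffAt_const.add (contDiff_refl j).contDiffAt)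
  rw [lap_lines hc, lap_eq_sum f]
  refine Finset.sum_congr rfl fun i _ => ?_
  set σ : ℝ := if j = i then (-1 : ℝ) else 1 with hσ
  have e : (fun t : ℝ => f (x + refl j (z + t • cv i))) =
      fun t => (1 : ℝ) * f (x + refl j z + t • (σ • cv i)) := by
    funext t; rw [refl_line, one_mul, add_assoc]
  have hγ : ∀ t : ℝ, HasDerivAt (fun t : ℝ => x + refl j z + t • (σ • cv i)) (σ • cv i) t :=
    fun t => by simpa using ((hasDerivAt_id t).smul_const (σ • cv i)).const_add (x + refl j z)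
  rw [e, line_second (P' := fun _ => 0) (P2 := 0) (γ2 := 0) (f := f) (y := x + refl j z) (by simp)
    (Eventually.of_forall fun t => hasDerivAt_const t 1) (hasDerivAt_const 0 0)
    (Eventually.of_forall hγ) (hasDerivAt_const 0 _) hf]
  simp only [map_smul, smul_eq_mul, smul_apply, map_zero]
  have : σ * σ = 1 := by rw [hσ]; split_ifs <;> norm_num
  linear_combination (fderiv ℝ (fderiv ℝ f) (x + refl j z) (cv i) (cv i)) * this

theorem lap_quad (j : Fin n) (a b k : ℝ) (z : E n) :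
    Laplacian.laplacian (fun w : E n => a * w j - b * w j ^ 2 + k * ‖w‖ ^ 2) z =
      -2 * b + 2 * n * k := by
  have hc : ContDiffAt ℝ 2 (fun w : E n => a * w j - b * w j ^ 2 + k * ‖w‖ ^ 2) z :=
    (((contDiff_const.mul (contDiff_coord j)).sub (contDiff_const.mul ((contDiff_coord j).pow 2))).add
      (contDiff_const.mul (contDiff_norm_sq ℝ))).contDiffAt
  rw [lap_lines hc]
  have h : ∀ i : Fin n, deriv (deriv fun t : ℝ =>
      a * (z + t • cv i) j - b * (z + t • cv i) j ^ 2 + k * ‖z + t • cv i‖ ^ 2) 0 =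
      (if j = i then -2 * b else 0) + 2 * k := by
    intro i
    set δ : ℝ := cv i j with hδ
    have e : (fun t : ℝ => a * (z + t • cv i) j - b * (z + t • cv i) j ^ 2 + k * ‖z + t • cv i‖ ^ 2)
        = fun t => a * (z j + t * δ) - b * (z j + t * δ) ^ 2 +
          k * (‖z‖ ^ 2 + 2 * t * z i + t ^ 2) := by
      funext t; rw [norm_sq_line]; simp [hδ]
    have d1 : deriv (fun t : ℝ => a * (z j + t * δ) - b * (z j + t * δ) ^ 2 +
        k * (‖z‖ ^ 2 + 2 * t * z i + t ^ 2)) =
        fun t => a * δ - b * (2 * (z j + t * δ) * δ) + k * (2 * z i + 2 * t) := by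
      funext t
      have hl : HasDerivAt (fun t : ℝ => z j + t * δ) δ t := by
        simpa using ((hasDerivAt_id t).mul_const δ).const_add (z j)
      have hq : HasDerivAt (fun t : ℝ => ‖z‖ ^ 2 + 2 * t * z i + t ^ 2) (2 * z i + 2 * t) t := by
        refine (((((hasDerivAt_id t).const_mul 2).mul_const (z i)).const_add _).add
          (hasDerivAt_pow 2 t)).congr_deriv ?_
        simp
      refine ((((hl.const_mul a).sub ((hl.pow 2).const_mul b))).add (hq.const_mul k)).deriv.trans ?_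
      simp
    rw [e, d1]
    have hl : HasDerivAt (fun t : ℝ => z j + t * δ) δ 0 := by
      simpa using ((hasDerivAt_id (0 : ℝ)).mul_const δ).const_add (z j)
    have h2 := ((((hl.const_mul 2).mul_const δ).const_mul b).const_sub (a * δ)).add
      ((((hasDerivAt_id (0 : ℝ)).const_mul 2).const_add (2 * z i)).const_mul k)
    refine HasDerivAt.deriv (f' := (if j = i then -2 * b else 0) + 2 * k) (h2.congr_deriv ?_)
    rw [hδ, cv_apply]
    split_ifs <;> ring
  rw [Finset.sum_congr rfl fun i _ => h i]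
  simp [Finset.sum_add_distrib]
  ring

/-- Interior gradient bound by half-ball barriers. -/
theorem grad_bound {f : E n → ℝ} {x : E n} {d M N c : ℝ} (hd : 0 < d) (hM : 0 ≤ M) (hN : 0 ≤ N)
    (hdiff : ∀ z ∈ Metric.closedBall x d, ContDiffAt ℝ 2 f z)
    (hbd : ∀ z ∈ Metric.closedBall x d, |f z - c| ≤ M)
    (hlap : ∀ z ∈ Metric.closedBall x d, |Laplacian.laplacian f z| ≤ N) (j : Fin n) :
    fderiv ℝ f x (cv j) ≤ n * M / d + (N + 1) * d / 2 := by
  set k := M / d ^ 2 with hk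
  set b := n * k + (N + 1) / 2 with hb
  set a := b * d with ha
  have hk0 : 0 ≤ k := by positivity
  have hb0 : 0 ≤ b := by positivity
  let ψ : E n → ℝ := fun w => a * w j - b * w j ^ 2 + k * ‖w‖ ^ 2
  let g1 : E n → ℝ := fun w => f (x + w)
  let g2 : E n → ℝ := fun w => f (x + refl j w)
  let Φ : E n → ℝ := ψ + (-(1 / 2 : ℝ)) • g1 + (1 / 2 : ℝ) • g2
  let K : Set (E n) := Metric.closedBall 0 d ∩ {w | 0 ≤ w j}
  let U : Set (E n) := Metric.ball 0 d ∩ {w | 0 < w j}
  have hK : IsCompact K :=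
    (isCompact_closedBall 0 d).inter_right (isClosed_le continuous_const (contDiff_coord j).continuous)
  have hmem1 : ∀ w : E n, ‖w‖ ≤ d → x + w ∈ Metric.closedBall x d := fun w hw => by
    simpa [dist_eq_norm] using hw
  have hmem2 : ∀ w : E n, ‖w‖ ≤ d → x + refl j w ∈ Metric.closedBall x d := fun w hw =>
    hmem1 _ (by rwa [norm_refl])
  have hψ : ∀ w, ContDiffAt ℝ 2 ψ w := fun w =>
    (((contDiff_const.mul (contDiff_coord j)).sub (contDiff_const.mul ((contDiff_coord j).pow 2))).add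
      (contDiff_const.mul (contDiff_norm_sq ℝ))).contDiffAt
  have hg1 : ∀ w : E n, ‖w‖ ≤ d → ContDiffAt ℝ 2 g1 w := fun w hw =>
    (hdiff _ (hmem1 w hw)).comp w (contDiffAt_const.add contDiffAt_id)
  have hg2 : ∀ w : E n, ‖w‖ ≤ d → ContDiffAt ℝ 2 g2 w := fun w hw =>
    (hdiff _ (hmem2 w hw)).comp w (contDiffAt_const.add (contDiff_refl j).contDiffAt)
  have hΦ : ∀ w : E n, ‖w‖ ≤ d → ContDiffAt ℝ 2 Φ w := fun w hw =>
    ((hψ w).add ((hg1 w hw).const_smul (-(1 / 2 : ℝ)))).add ((hg2 w hw).const_smul (1 / 2 : ℝ))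
  have hnn : ∀ w ∈ K, 0 ≤ Φ w := by
    have hU : IsOpen U :=
      Metric.isOpen_ball.inter (isOpen_lt continuous_const (contDiff_coord j).continuous)
    refine minP hK hU ?_ ?_ ?_ ?_ ?_
    · exact fun w hw => ⟨Metric.ball_subset_closedBall hw.1, show (0 : ℝ) ≤ w j from le_of_lt hw.2⟩
    · exact fun w hw => (hΦ w (by simpa using hw.1)).continuousAt.continuousWithinAt
    · exact fun w hw => hΦ w (le_of_lt (by simpa using hw.1))
    · intro w hw
      have hwd : ‖w‖ ≤ d := le_of_lt (by simpa using hw.1)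
      have h12 : ContDiffAt ℝ 2 (ψ + (-(1 / 2 : ℝ)) • g1) w :=
        (hψ w).add ((hg1 w hwd).const_smul (-(1 / 2 : ℝ)))
      have h2 : ContDiffAt ℝ 2 ((1 / 2 : ℝ) • g2) w := (hg2 w hwd).const_smul (1 / 2 : ℝ)
      have h1 : ContDiffAt ℝ 2 ((-(1 / 2 : ℝ)) • g1) w := (hg1 w hwd).const_smul (-(1 / 2 : ℝ))
      have hl1 : Laplacian.laplacian g1 w = Laplacian.laplacian f (x + w) := by
        rw [lap_eq_sum, lap_eq_sum]
        have hcl : fderiv ℝ g1 = fun v => fderiv ℝ f (x + v) :=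
          funext fun v => fderiv_comp_add_left ..
        rw [hcl]
        simp [fderiv_comp_add_left]
      simp only [Φ]
      rw [h12.laplacian_add h2, (hψ w).laplacian_add h1,
        InnerProductSpace.laplacian_smul _ (hg1 w hwd), InnerProductSpace.laplacian_smul _ (hg2 w hwd),
        hl1, show Laplacian.laplacian g2 w = _ from lap_comp_refl j x w (hdiff _ (hmem2 w hwd)),
        show Laplacian.laplacian ψ w = _ from lap_quad j a b k w]
      have e1 := abs_le.1 (hlap _ (hmem1 w hwd))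
      have e2 := abs_le.1 (hlap _ (hmem2 w hwd))
      simp only [smul_eq_mul, hb]
      linarith [e1.1, e1.2, e2.1, e2.2]
    · intro w hw hwU
      have hwd : ‖w‖ ≤ d := by simpa using hw.1
      have hj : 0 ≤ w j := hw.2
      simp only [Φ, ψ, g1, g2, Pi.add_apply, Pi.smul_apply, smul_eq_mul]
      rcases hj.eq_or_lt with h | h
      · have hr : refl j w = w := by simp [refl, ← h]
        rw [hr, ← h]
        have : 0 ≤ k * ‖w‖ ^ 2 := by positivity
        linarith
      · have hd' : ‖w‖ = d := by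
          refine le_antisymm hwd ?_
          by_contra hh
          exact hwU ⟨by simpa using hh, h⟩
        have hwj : w j ≤ d := by
          rw [← inner_cv w j]
          refine (real_inner_le_norm _ _).trans ?_
          rw [norm_cv, mul_one, hd']
        have e1 := abs_le.1 (hbd _ (hmem1 w hwd))
        have e2 := abs_le.1 (hbd _ (hmem2 w hwd))
        have e3 : k * d ^ 2 = M := by rw [hk]; field_simp
        rw [hd', e3, ha]
        have e4 : 0 ≤ b * (w j * (d - w j)) :=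
          mul_nonneg hb0 (mul_nonneg hj (by linarith))
        nlinarith [e1.1, e1.2, e2.1, e2.2]
  have hline : ∀ t : ℝ, Φ (t • cv j) =
      a * t - b * t ^ 2 + k * t ^ 2 - (1 / 2) * f (x + t • cv j) + (1 / 2) * f (x + (-t) • cv j) := by
    intro t
    have hr : refl j (t • cv j) = (-t) • cv j := by
      simp only [refl, PiLp.smul_apply, cv_apply, if_true, smul_eq_mul, mul_one]
      module
    simp only [Φ, ψ, g1, g2, Pi.add_apply, Pi.smul_apply, smul_eq_mul, hr, PiLp.smul_apply,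
      cv_apply, if_true, norm_smul, norm_cv, mul_one, Real.norm_eq_abs, sq_abs]
    ring
  have hfx : HasFDerivAt f (fderiv ℝ f x) x :=
    ((hdiff x (Metric.mem_closedBall_self hd.le)).differentiableAt (by simp)).hasFDerivAt
  have hp : HasDerivAt (fun t : ℝ => f (x + t • cv j)) (fderiv ℝ f x (cv j)) 0 :=
    hfx.comp_hasDerivAt_of_eq 0 (hasDerivAt_cvline x j 0) (by simp)
  have hm : HasDerivAt (fun t : ℝ => f (x + (-t) • cv j)) (-fderiv ℝ f x (cv j)) 0 := by
    have h1 : HasDerivAt (fun t : ℝ => x + (-t) • cv j) (-cv j) 0 := by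
      simpa using ((hasDerivAt_id (0 : ℝ)).neg.smul_const (cv j)).const_add x
    have := hfx.comp_hasDerivAt_of_eq 0 h1 (by simp)
    rwa [map_neg] at this
  have hdg : HasDerivAt (fun t : ℝ => Φ (t • cv j)) (a - fderiv ℝ f x (cv j)) 0 := by
    simp only [hline]
    refine (((((hasDerivAt_id (0 : ℝ)).const_mul a).sub ((hasDerivAt_pow 2 (0 : ℝ)).const_mul b)).add
      ((hasDerivAt_pow 2 (0 : ℝ)).const_mul k)).sub (hp.const_mul (1 / 2)) |>.add
      (hm.const_mul (1 / 2))).congr_deriv ?_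
    simp
    ring
  have hres := deriv_nonneg_of_right hd hdg (by rw [hline]; simp) fun t ht htd =>
    hnn _ ⟨by simp [norm_smul, norm_cv, abs_of_pos ht, htd.le], by simp [cv_apply, ht.le]⟩
  have : a = n * M / d + (N + 1) * d / 2 := by rw [ha, hb, hk]; field_simp
  linarith

theorem grad_abs {f : E n → ℝ} {x : E n} {d M N c : ℝ} (hd : 0 < d) (hM : 0 ≤ M) (hN : 0 ≤ N)
    (hdiff : ∀ z ∈ Metric.closedBall x d, ContDiffAt ℝ 2 f z)
    (hbd : ∀ z ∈ Metric.closedBall x d, |f z - c| ≤ M)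
    (hlap : ∀ z ∈ Metric.closedBall x d, |Laplacian.laplacian f z| ≤ N) (j : Fin n) :
    |fderiv ℝ f x (cv j)| ≤ n * M / d + (N + 1) * d / 2 := by
  refine abs_le.2 ⟨?_, grad_bound hd hM hN hdiff hbd hlap j⟩
  have h := grad_bound (f := fun z => -f z) (c := -c) hd hM hN (fun z hz => (hdiff z hz).neg)
    (fun z hz => by rw [show -f z - -c = -(f z - c) by ring, abs_neg]; exact hbd z hz)
    (fun z hz => by
      have e : Laplacian.laplacian (fun w => -f w) z = -Laplacian.laplacian f z := by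
        rw [lap_eq_sum, lap_eq_sum]
        have : fderiv ℝ (fun w => -f w) = fun w => -fderiv ℝ f w := funext fun w => fderiv_fun_neg
        rw [this, fderiv_fun_neg]
        simp
      rw [e, abs_neg]; exact hlap z hz) j
  rw [fderiv_fun_neg, neg_apply] at h
  linarith

/-- Strict monotonicity of `r ↦ r^θ u(r ω)` near the origin, in infinitesimal form. -/
theorem near_zero {u : E n → ℝ} (hu : Super u) {θ A C : ℝ} (hθ : 0 < θ) (hA : -2 < A) (hC : 0 ≤ C)
    (hlap : ∀ z, z ≠ 0 → ‖z‖ ≤ 1 → |Laplacian.laplacian u z| ≤ C * ‖z‖ ^ A) :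
    ∃ r : ℝ, 0 < r ∧ ∀ y : E n, y ≠ 0 → ‖y‖ < r → 0 < θ * u y + fderiv ℝ u y y := by
  obtain ⟨_, CA, -, hCA, hband⟩ := rpow_band A
  set ε := θ * u 0 / 4 with hε
  have hε0 : 0 < ε := by have := hu.pos 0; rw [hε]; positivity
  set M := ε / (2 * (n : ℝ) ^ 2 + 1) with hM
  have hM0 : 0 < M := by positivity
  obtain ⟨δ1, hδ1, hδ1'⟩ := Metric.continuousAt_iff.1 (hu.cont.continuousAt (x := (0 : E n))) M hM0
  obtain ⟨δ2, hδ2, hδ2'⟩ := Metric.continuousAt_iff.1 (hu.cont.continuousAt (x := (0 : E n))) (u 0 / 4)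
    (by linarith [hu.pos 0])
  have hlim : Tendsto (fun ρ : ℝ => (n : ℝ) * (C * CA * ρ ^ (A + 2) + ρ ^ 2) / 4) (𝓝 0) (𝓝 0) := by
    have h1 : Tendsto (fun ρ : ℝ => ρ ^ (A + 2)) (𝓝 0) (𝓝 0) := by
      simpa [Real.zero_rpow (show A + 2 ≠ 0 by linarith)] using
        (Real.continuousAt_rpow_const 0 (A + 2) (Or.inr (by linarith))).tendsto
    have h2 : Tendsto (fun ρ : ℝ => ρ ^ 2) (𝓝 0) (𝓝 0) := by
      simpa using (continuous_pow 2).tendsto (0 : ℝ)
    simpa using (((h1.const_mul (C * CA)).add h2).const_mul (n : ℝ)).div_const 4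
  obtain ⟨δ3, hδ3, hδ3'⟩ := Metric.eventually_nhds_iff.1 (hlim.eventually (gt_mem_nhds hε0))
  refine ⟨min (min (δ1 / 2) δ2) (min δ3 (1 / 2)), by positivity, fun y hy hyr => ?_⟩
  simp only [lt_min_iff] at hyr
  obtain ⟨⟨hy1, hy2⟩, hy3, hy4⟩ := hyr
  set ρ := ‖y‖ with hρ
  have hρ0 : 0 < ρ := norm_pos_iff.2 hy
  have hball : ∀ z ∈ Metric.closedBall y (ρ / 2), ρ / 2 ≤ ‖z‖ ∧ ‖z‖ ≤ 2 * ρ ∧ z ≠ 0 := by
    intro z hz
    rw [Metric.mem_closedBall, dist_eq_norm] at hz
    have h1 := norm_sub_norm_le y z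
    rw [norm_sub_rev] at h1
    have h2 := norm_sub_norm_le z y
    refine ⟨by linarith, by linarith, fun h => ?_⟩
    rw [h, zero_sub, norm_neg] at hz; linarith
  have hg : ∀ j, |fderiv ℝ u y (cv j)| ≤ n * M / (ρ / 2) + (C * CA * ρ ^ A + 1) * (ρ / 2) / 2 := by
    intro j
    refine grad_abs (c := u 0) (by positivity) hM0.le (by positivity)
      (fun z hz => hu.at' (hball z hz).2.2) (fun z hz => ?_) (fun z hz => ?_) j
    · have h := (hball z hz).2.1
      have := hδ1' (x := z) (by rw [dist_zero_right]; linarith)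
      rw [Real.dist_eq] at this
      exact this.le
    · obtain ⟨h1, h2, h3⟩ := hball z hz
      refine (hlap z h3 (by linarith)).trans ?_
      rw [mul_assoc]
      exact mul_le_mul_of_nonneg_left (hband ρ ‖z‖ hρ0 h1 h2).2 hC
  have hD : |fderiv ℝ u y y| ≤
      n * (ρ * (n * M / (ρ / 2) + (C * CA * ρ ^ A + 1) * (ρ / 2) / 2)) := by
    rw [← sum_lin (fderiv ℝ u y) y]
    refine (Finset.abs_sum_le_sum_abs _ _).trans ?_
    refine (Finset.sum_le_sum (g := fun _ => ρ * (n * M / (ρ / 2) + (C * CA * ρ ^ A + 1) * (ρ / 2) / 2))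
      fun i _ => ?_).trans (by simp)
    rw [abs_mul]
    refine mul_le_mul ?_ (hg i) (abs_nonneg _) hρ0.le
    rw [← inner_cv y i]
    simpa [norm_cv, hρ] using abs_real_inner_le_norm y (cv i)
  have he : (n : ℝ) * (ρ * (n * M / (ρ / 2) + (C * CA * ρ ^ A + 1) * (ρ / 2) / 2)) =
      2 * (n : ℝ) ^ 2 * M + (n : ℝ) * (C * CA * ρ ^ (A + 2) + ρ ^ 2) / 4 := by
    rw [show ρ ^ (A + 2) = ρ ^ A * ρ ^ 2 by
      rw [Real.rpow_add hρ0, ← Real.rpow_natCast ρ 2]; norm_num]
    field_simp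
    ring
  have h2M : 2 * (n : ℝ) ^ 2 * M ≤ ε := by
    rw [hM, mul_div_assoc', div_le_iff₀ (by positivity)]
    nlinarith
  have h3 := hδ3' (y := ρ) (by rw [Real.dist_eq, sub_zero, abs_of_pos hρ0]; exact hy3)
  have h4 := hδ2' (x := y) (by rw [dist_zero_right]; exact hy2)
  rw [Real.dist_eq, abs_lt] at h4
  have h5 := (abs_le.1 hD).1
  have h6 : θ * (3 * u 0 / 4) ≤ θ * u y := mul_le_mul_of_nonneg_left (by linarith) hθ.le
  rw [hε] at h2M h3
  nlinarith [mul_pos hθ (hu.pos 0)]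

end Vale.Agent.P100H
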