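import Vale.Agent.P100H.Calc

/-!
# P100: supersolution tools (exterior bound, centre bound, local bound, gradient bound)
-/

noncomputable section

namespace Vale.Agent.P100H

open Filter Topology Set

variable {n : ℕ}

/-- A positive function, continuous on the whole space and a strict supersolution off the origin. -/
structure Super (u : E n → ℝ) : Prop where
  cont : Continuous u
  diff : ContDiffOn ℝ 2 u {0}ᶜ
  pos : ∀ x, 0 < u x
  lap : ∀ x, x ≠ 0 → Laplacian.laplacian u x < 0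

theorem Super.at' {u : E n → ℝ} (hu : Super u) {x : E n} (hx : x ≠ 0) : ContDiffAt ℝ 2 u x :=
  hu.diff.contDiffAt (isOpen_compl_singleton.mem_nhds hx)

/-- `(n - 2)/2`. -/
def hf (n : ℕ) : ℝ := ((n : ℝ) - 2) / 2

theorem hf_pos (hn : 3 ≤ n) : 0 < hf n := by
  have : (3 : ℝ) ≤ n := by exact_mod_cast hn
  rw [hf]; linarith

/-- The radial harmonic function `(L/|x|^2)^((n-2)/2)`. -/
def phi (L : ℝ) (x : E n) : ℝ := L ^ (hf n) * (‖x‖ ^ 2) ^ (-(hf n))

theorem phi_eq_kel (L : ℝ) : (phi L : E n → ℝ) = kel L (hf n) (fun _ => 1) := by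
  funext x; simp [phi, kel]

theorem contDiffAt_phi {L : ℝ} (hL : 0 < L) {x : E n} (hx : x ≠ 0) :
    ContDiffAt ℝ 2 (phi L : E n → ℝ) x := by
  rw [phi_eq_kel]; exact contDiffAt_kel hL contDiffOn_const hx

theorem lap_phi {L : ℝ} (hL : 0 < L) {x : E n} (hx : x ≠ 0) :
    Laplacian.laplacian (phi L : E n → ℝ) x = 0 := by
  rw [phi_eq_kel, lap_kel hL contDiffOn_const hx]
  have h0 : ∀ y : E n, Laplacian.laplacian (fun _ : E n => (1 : ℝ)) y = 0 := fun y => by
    simp [lap_eq_sum]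
  rw [h0, show 2 * hf n - ((n : ℝ) - 2) = 0 by rw [hf]; ring]
  simp

theorem phi_eq {L : ℝ} (hL : 0 < L) {x : E n} (hx : x ≠ 0) :
    phi L x = (L / ‖x‖ ^ 2) ^ (hf n) := by
  rw [phi, Real.div_rpow hL.le (by positivity), Real.rpow_neg (by positivity), div_eq_mul_inv]

theorem phi_anti (hn : 3 ≤ n) {L : ℝ} (hL : 0 < L) {x : E n} {R : ℝ} (hR : 0 < R)
    (hx : R ≤ ‖x‖ ^ 2) : phi L x ≤ (L / R) ^ (hf n) := by
  have hx0 : x ≠ 0 := fun h => by simp [h] at hx; linarith
  rw [phi_eq hL hx0]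
  exact Real.rpow_le_rpow (by positivity) (div_le_div_of_nonneg_left hL.le hR hx) (hf_pos hn).le

theorem phi_pos {L : ℝ} (hL : 0 < L) {x : E n} (hx : x ≠ 0) : 0 < phi L x := by
  rw [phi_eq hL hx]
  have := norm_pos_iff.2 hx
  positivity

theorem phi_sphere {L : ℝ} (hL : 0 < L) {x : E n} (hx : ‖x‖ ^ 2 = L) : phi L x = 1 := by
  have hx0 : x ≠ 0 := fun h => by simp [h] at hx; linarith
  rw [phi_eq hL hx0, hx, div_self hL.ne', Real.one_rpow]

/-- Laplacian of a combination with a harmonic radial function. -/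
theorem lap_comb {f : E n → ℝ} {L : ℝ} (hL : 0 < L) (c d : ℝ) {x : E n} (hx : x ≠ 0)
    (hfx : ContDiffAt ℝ 2 f x) :
    ContDiffAt ℝ 2 (fun z => f z + c * phi L z + d) x ∧
    Laplacian.laplacian (fun z => f z + c * phi L z + d) x = Laplacian.laplacian f x := by
  have hp := contDiffAt_phi (n := n) hL hx
  have h2 : ContDiffAt ℝ 2 (c • (phi L : E n → ℝ)) x := hp.const_smul c
  refine ⟨(hfx.add (contDiffAt_const.mul hp)).add contDiffAt_const, ?_⟩
  have e : (fun z => f z + c * phi L z + d) = f + c • (phi L : E n → ℝ) + fun _ => d := by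
    funext z; simp
  have hfg : ContDiffAt ℝ 2 (f + c • (phi L : E n → ℝ)) x := hfx.add h2
  rw [e, hfg.laplacian_add contDiffAt_const, hfx.laplacian_add h2,
    InnerProductSpace.laplacian_smul c hp, lap_phi hL hx, lap_eq_sum (fun _ : E n => d)]
  simp

theorem exists_norm_eq' (hn : 3 ≤ n) {r : ℝ} (hr : 0 ≤ r) : ∃ x : E n, ‖x‖ = r :=
  ⟨EuclideanSpace.single ⟨0, by omega⟩ r, by simp [abs_of_nonneg hr]⟩

theorem exists_sq_eq (hn : 3 ≤ n) {L : ℝ} (hL : 0 ≤ L) : ∃ x : E n, ‖x‖ ^ 2 = L := by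
  obtain ⟨x, hx⟩ := exists_norm_eq' hn (Real.sqrt_nonneg L)
  exact ⟨x, by rw [hx, Real.sq_sqrt hL]⟩

/-- Closed annulus in squared radius. -/
def ann (n : ℕ) (a b : ℝ) : Set (E n) := {x | a ≤ ‖x‖ ^ 2 ∧ ‖x‖ ^ 2 ≤ b}

theorem isCompact_ann (a b : ℝ) : IsCompact (ann n a b) := by
  refine (isCompact_closedBall (0 : E n) (Real.sqrt b)).of_isClosed_subset ?_ ?_
  · exact (isClosed_le continuous_const (continuous_norm.pow 2)).inter
      (isClosed_le (continuous_norm.pow 2) continuous_const)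
  · intro x hx
    simpa using Real.le_sqrt_of_sq_le hx.2

theorem ann_ne_zero {a b : ℝ} (ha : 0 < a) {x : E n} (hx : x ∈ ann n a b) : x ≠ 0 := fun h => by
  have := hx.1; simp [h] at this; linarith

theorem isOpen_openAnn (a b : ℝ) : IsOpen {x : E n | a < ‖x‖ ^ 2 ∧ ‖x‖ ^ 2 < b} :=
  (isOpen_lt continuous_const (continuous_norm.pow 2)).inter
    (isOpen_lt (continuous_norm.pow 2) continuous_const)

/-- Minimum principle on an annulus. -/
theorem minAnn {a b : ℝ} (ha : 0 < a) {f : E n → ℝ}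
    (hd : ∀ x, x ≠ 0 → a ≤ ‖x‖ ^ 2 → ContDiffAt ℝ 2 f x)
    (hlap : ∀ x, a < ‖x‖ ^ 2 → ‖x‖ ^ 2 < b → Laplacian.laplacian f x < 0)
    (hb : ∀ x, ‖x‖ ^ 2 = a ∨ ‖x‖ ^ 2 = b → 0 ≤ f x) : ∀ x ∈ ann n a b, 0 ≤ f x := by
  refine minP (isCompact_ann a b) (isOpen_openAnn a b) (fun x hx => ⟨hx.1.le, hx.2.le⟩)
    (fun x hx => (hd x (ann_ne_zero ha hx) hx.1).continuousAt.continuousWithinAt)
    (fun x hx => hd x (ann_ne_zero ha ⟨hx.1.le, hx.2.le⟩) hx.1.le) (fun x hx => hlap x hx.1 hx.2) ?_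
  intro x hx hxU
  refine hb x ?_
  rcases hx.1.eq_or_lt with h | h
  · exact Or.inl h.symm
  rcases hx.2.eq_or_lt with h' | h'
  · exact Or.inr h'
  exact absurd ⟨h, h'⟩ hxU

/-- A nonnegative strict supersolution outside a sphere dominates a harmonic profile. -/
theorem exterior (hn : 3 ≤ n) {L c : ℝ} (hL : 0 < L) (hc : 0 ≤ c) {f : E n → ℝ}
    (hd : ∀ x, x ≠ 0 → L ≤ ‖x‖ ^ 2 → ContDiffAt ℝ 2 f x)
    (hlap : ∀ x, L < ‖x‖ ^ 2 → Laplacian.laplacian f x < 0)
    (hf0 : ∀ x, L ≤ ‖x‖ ^ 2 → 0 ≤ f x) (hbd : ∀ x, ‖x‖ ^ 2 = L → c ≤ f x) :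
    ∀ x, L ≤ ‖x‖ ^ 2 → c * phi L x ≤ f x := by
  intro x hx
  refine le_of_forall_pos_le_add fun ε hε => ?_
  have hlim : Tendsto (fun R : ℝ => c * (L / R) ^ (hf n)) atTop (𝓝 0) := by
    have h1 : Tendsto (fun R : ℝ => L / R) atTop (𝓝 0) := tendsto_const_nhds.div_atTop tendsto_id
    have h2 := (h1.rpow_const (Or.inr (hf_pos hn).le)).const_mul c
    simpa [Real.zero_rpow (hf_pos hn).ne'] using h2
  obtain ⟨R, hR1, hR2⟩ := ((hlim.eventually (gt_mem_nhds hε)).and
    (eventually_gt_atTop (‖x‖ ^ 2))).exists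
  have h := minAnn hL (f := fun z => f z + -c * phi L z + ε) (b := R)
    (fun z hz hzL => (lap_comb hL (-c) ε hz (hd z hz hzL)).1) ?_ ?_ x ⟨hx, hR2.le⟩
  · linarith
  · intro z hz1 _
    have hz : z ≠ 0 := fun h => by simp [h] at hz1; linarith
    rw [(lap_comb hL (-c) ε hz (hd z hz hz1.le)).2]
    exact hlap z hz1
  · intro z hz
    rcases hz with hz | hz
    · have := hbd z hz
      rw [phi_sphere hL hz]; linarith
    · have h1 := hf0 z (by rw [hz]; linarith)
      have h2 := phi_anti hn hL (x := z) (R := R) (by linarith) hz.ge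
      have h3 : c * phi L z ≤ c * (L / R) ^ (hf n) := mul_le_mul_of_nonneg_left h2 hc
      linarith

/-- The value at the origin is at least the minimum on each sphere. -/
theorem centre (hn : 3 ≤ n) {u : E n → ℝ} (hu : Super u) {R c : ℝ} (hR : 0 < R)
    (hbd : ∀ x, ‖x‖ ^ 2 = R → c ≤ u x) : c ≤ u 0 := by
  by_contra hcon
  rw [not_le] at hcon
  have hcpos : 0 < c := (hu.pos 0).trans hcon
  have hne : ∃ᶠ x in 𝓝 (0 : E n), x ≠ 0 ∧ ‖x‖ ^ 2 < R := by
    refine Filter.frequently_iff.2 fun {U} hU => ?_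
    obtain ⟨r, hr, hrU⟩ := Metric.mem_nhds_iff.1 hU
    obtain ⟨x, hx⟩ := exists_norm_eq' (n := n) hn (r := min r (Real.sqrt R) / 2)
      (by positivity)
    have hs : 0 < min r (Real.sqrt R) := lt_min hr (Real.sqrt_pos.2 hR)
    refine ⟨x, hrU ?_, fun h => ?_, ?_⟩
    · rw [mem_ball_zero_iff, hx]; linarith [min_le_left r (Real.sqrt R)]
    · simp [h] at hx; linarith
    · rw [← Real.sq_sqrt hR.le, hx]
      have := min_le_right r (Real.sqrt R)
      gcongr
      linarith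
  obtain ⟨x, ⟨hx0, hxR⟩, hxc⟩ := (hne.and_eventually
    (hu.cont.continuousAt.eventually (gt_mem_nhds hcon))).exists
  refine absurd ?_ (not_le.2 hxc)
  refine le_of_forall_pos_le_add fun ε hε => ?_
  have hQ : 0 < ‖x‖ ^ 2 := by have := norm_pos_iff.2 hx0; positivity
  have hlim : Tendsto (fun a : ℝ => c * (a / ‖x‖ ^ 2) ^ (hf n)) (𝓝[>] 0) (𝓝 0) := by
    have h1 : Tendsto (fun a : ℝ => a / ‖x‖ ^ 2) (𝓝[>] 0) (𝓝 0) := by
      simpa using ((continuous_id.div_const (‖x‖ ^ 2)).tendsto 0).mono_left nhdsWithin_le_nhds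
    have h2 := (h1.rpow_const (Or.inr (hf_pos hn).le)).const_mul c
    simpa [Real.zero_rpow (hf_pos hn).ne'] using h2
  obtain ⟨a, ha1, ha2, ha3⟩ := ((hlim.eventually (gt_mem_nhds hε)).and
    ((Filter.Eventually.filter_mono nhdsWithin_le_nhds (gt_mem_nhds hQ)).and
      (eventually_mem_nhdsWithin))).exists
  have ha : 0 < a := ha3
  have h := minAnn ha (f := fun z => u z + c * phi a z + -c) (b := R)
    (fun z hz _ => (lap_comb ha c (-c) hz (hu.at' hz)).1) ?_ ?_ x ⟨le_of_lt ha2, hxR.le⟩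
  · rw [phi_eq ha hx0] at h; linarith
  · intro z hz1 _
    have hz : z ≠ 0 := fun h => by simp [h] at hz1; linarith
    rw [(lap_comb ha c (-c) hz (hu.at' hz)).2]
    exact hu.lap z hz
  · intro z hz
    rcases hz with hz | hz
    · rw [phi_sphere ha hz]; linarith [hu.pos z]
    · have hz0 : z ≠ 0 := fun h => by simp [h] at hz; linarith
      have := mul_pos hcpos (phi_pos ha hz0)
      linarith [hbd z hz]

theorem lap_sq (x0 z : E n) :
    Laplacian.laplacian (fun y : E n => ‖y - x0‖ ^ 2) z = 2 * n := by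
  have hc : ContDiffAt ℝ 2 (fun y : E n => ‖y - x0‖ ^ 2) z :=
    ((contDiff_norm_sq ℝ).comp (contDiff_id.sub contDiff_const)).contDiffAt
  rw [lap_lines hc]
  have h : ∀ i : Fin n, deriv (deriv fun t : ℝ => ‖z + t • cv i - x0‖ ^ 2) 0 = 2 := by
    intro i
    have e : (fun t : ℝ => ‖z + t • cv i - x0‖ ^ 2) =
        fun t => ‖z - x0‖ ^ 2 + 2 * t * (z - x0) i + t ^ 2 := by
      funext t; rw [show z + t • cv i - x0 = (z - x0) + t • cv i by abel, norm_sq_line]
    have d1 : deriv (fun t : ℝ => ‖z + t • cv i - x0‖ ^ 2) = fun t => 2 * (z - x0) i + 2 * t := by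
      rw [e]; funext t
      refine HasDerivAt.deriv ?_
      refine (((((hasDerivAt_id t).const_mul 2).mul_const ((z - x0) i)).const_add _).add
        (hasDerivAt_pow 2 t)).congr_deriv ?_
      simp
    rw [d1]
    exact (((hasDerivAt_id (0 : ℝ)).const_mul 2).const_add _).deriv.trans (by ring)
  rw [Finset.sum_congr rfl fun i _ => h i]
  simp; ring

/-- A lower bound `K` for `-Δu` on a ball gives `u ≥ K ρ²/(4n)` at its centre. -/
theorem ball_lower (hn : 3 ≤ n) {u : E n → ℝ} (hu : Super u) {x : E n} {ρ K : ℝ} (hρ : 0 < ρ)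
    (hρx : ρ < ‖x‖) (hK : 0 < K)
    (hf : ∀ z ∈ Metric.closedBall x ρ, Laplacian.laplacian u z ≤ -K) :
    K * ρ ^ 2 / (4 * n) ≤ u x := by
  have hn' : (0 : ℝ) < n := by exact_mod_cast (show 0 < n by omega)
  set k := K / (4 * (n : ℝ)) with hk
  have hk0 : 0 < k := by positivity
  have hne : ∀ z ∈ Metric.closedBall x ρ, z ≠ 0 := fun z hz h => by
    rw [h, Metric.mem_closedBall, dist_zero_left] at hz; linarith
  have hq : ∀ z : E n, ContDiffAt ℝ 2 (fun y : E n => ‖y - x‖ ^ 2) z := fun z =>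
    ((contDiff_norm_sq ℝ).comp (contDiff_id.sub contDiff_const)).contDiffAt
  have e : (fun z : E n => u z + k * ‖z - x‖ ^ 2 - k * ρ ^ 2) =
      u + k • (fun y : E n => ‖y - x‖ ^ 2) + fun _ => -(k * ρ ^ 2) := by
    funext z; simp; ring
  have h := minP (f := fun z => u z + k * ‖z - x‖ ^ 2 - k * ρ ^ 2) (isCompact_closedBall x ρ)
    Metric.isOpen_ball Metric.ball_subset_closedBall ?_ ?_ ?_ ?_ x (Metric.mem_closedBall_self hρ.le)
  · simp only [sub_self, norm_zero] at h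
    have : k * ρ ^ 2 = K * ρ ^ 2 / (4 * n) := by rw [hk]; ring
    linarith
  · exact ((hu.cont.add (by fun_prop)).sub continuous_const).continuousOn
  · intro z hz
    exact ((hu.at' (hne z (Metric.ball_subset_closedBall hz))).add
      (contDiffAt_const.mul (hq z))).sub contDiffAt_const
  · intro z hz
    have hzc := hu.at' (hne z (Metric.ball_subset_closedBall hz))
    have h1 := hf z (Metric.ball_subset_closedBall hz)
    have hks : ContDiffAt ℝ 2 (k • fun y : E n => ‖y - x‖ ^ 2) z := (hq z).const_smul k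
    have hfg : ContDiffAt ℝ 2 (u + k • fun y : E n => ‖y - x‖ ^ 2) z := hzc.add hks
    rw [e, hfg.laplacian_add contDiffAt_const, hzc.laplacian_add hks,
      InnerProductSpace.laplacian_smul k (hq z), lap_sq, lap_eq_sum (fun _ : E n => -(k * ρ ^ 2))]
    simp only [smul_eq_mul, fderiv_fun_const, Pi.zero_def, fderiv_const_apply]
    have : k * (2 * n) = K / 2 := by rw [hk]; field_simp; ring
    simp; linarith
  · intro z hz hzU
    have h1 : dist z x = ρ := le_antisymm hz (by simpa using hzU)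
    rw [dist_eq_norm] at h1
    rw [h1]; linarith [hu.pos z]

theorem deriv_nonneg_of_right {g : ℝ → ℝ} {g' a b : ℝ} (hab : a < b) (hd : HasDerivAt g g' a)
    (h0 : g a = 0) (h : ∀ t, a < t → t < b → 0 ≤ g t) : 0 ≤ g' := by
  have hs := (hasDerivAt_iff_tendsto_slope.1 hd).mono_left (nhdsGT_le_nhdsNE a)
  refine ge_of_tendsto hs ?_
  filter_upwards [Ioo_mem_nhdsGT hab] with t ht
  rw [slope_def_field, h0, sub_zero]
  exact div_nonneg (h t ht.1 ht.2) (by linarith [ht.1])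

end Vale.Agent.P100H
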